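import Vale.Agent.Lib.P054.Energy

namespace Vale.Agent.Lib.P054

open Finset

/-- `gcd (m, w_0, ..., w_{k-1})`, computed by peeling off coordinates one at a time. -/
def chainGcd : (k : ℕ) → ℕ → (Fin k → ℤ) → ℕ
  | 0, m, _ => m
  | k + 1, m, w => chainGcd k (Nat.gcd m (w 0).natAbs) (fun j => w j.succ)

lemma chainGcd_dvd_left : ∀ (k m : ℕ) (w : Fin k → ℤ), chainGcd k m w ∣ m
  | 0, m, _ => dvd_refl m
  | k + 1, m, w =>
    (chainGcd_dvd_left k (Nat.gcd m (w 0).natAbs) (fun j => w j.succ)).trans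
      (Nat.gcd_dvd_left _ _)

lemma chainGcd_dvd_coord : ∀ (k m : ℕ) (w : Fin k → ℤ) (j : Fin k),
    (chainGcd k m w : ℤ) ∣ w j
  | 0, _, _, j => j.elim0
  | k + 1, m, w, j => by
    refine Fin.cases ?_ (fun j' => ?_) j
    · have h1 := chainGcd_dvd_left k (Nat.gcd m (w 0).natAbs) (fun j => w j.succ)
      have h2 : chainGcd (k + 1) m w ∣ (w 0).natAbs := h1.trans (Nat.gcd_dvd_right _ _)
      exact Int.natCast_dvd.mpr h2
    · exact chainGcd_dvd_coord k (Nat.gcd m (w 0).natAbs) (fun j => w j.succ) j'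

lemma chainGcd_pos (k m : ℕ) (w : Fin k → ℤ) (hm : 0 < m) : 0 < chainGcd k m w :=
  Nat.pos_of_dvd_of_pos (chainGcd_dvd_left k m w) hm

/-- The number of `b ∈ [-T, T]^k` with `m ∣ w · b + c`. -/
noncomputable def Ncount (k T m : ℕ) (w : Fin k → ℤ) (c : ℤ) : ℕ :=
  ((cube k T).filter (fun b => (m : ℤ) ∣ ∑ j, w j * b j + c)).card

lemma Ncount_succ_le (k T m : ℕ) (hm : 0 < m) (w : Fin (k + 1) → ℤ) (c : ℤ) :
    Ncount (k + 1) T m w c * (m / Nat.gcd m (w 0).natAbs)
      ≤ Ncount k T (Nat.gcd m (w 0).natAbs) (fun j => w j.succ) c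
        * (2 * T + m / Nat.gcd m (w 0).natAbs) := by
  set m' := Nat.gcd m (w 0).natAbs with hm'
  set S := (cube (k + 1) T).filter (fun b => (m : ℤ) ∣ ∑ j, w j * b j + c) with hS
  set S' := (cube k T).filter (fun b => (m' : ℤ) ∣ ∑ j, w j.succ * b j + c) with hS'
  have hm'm : (m' : ℤ) ∣ (m : ℤ) := Int.natCast_dvd_natCast.mpr (Nat.gcd_dvd_left _ _)
  have hm'w : (m' : ℤ) ∣ w 0 := Int.natCast_dvd.mpr (Nat.gcd_dvd_right _ _)
  have hmaps : ∀ b ∈ S, (fun j : Fin k => b j.succ) ∈ S' := by
    intro b hb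
    rw [hS, Finset.mem_filter, mem_cube] at hb
    rw [hS', Finset.mem_filter, mem_cube]
    refine ⟨fun j => hb.1 j.succ, ?_⟩
    have h1 := hm'm.trans hb.2
    rw [Fin.sum_univ_succ] at h1
    have h2 : (m' : ℤ) ∣ w 0 * b 0 := dvd_mul_of_dvd_left hm'w _
    have e : ∑ j : Fin k, w j.succ * b j.succ + c
        = (w 0 * b 0 + ∑ j : Fin k, w j.succ * b j.succ + c) - w 0 * b 0 := by ring
    rw [e]
    exact dvd_sub h1 h2
  have hfib : ∀ b' ∈ S', (S.filter (fun b => (fun j : Fin k => b j.succ) = b')).card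
      * (m / m') ≤ 2 * T + m / m' := by
    intro b' _
    have h1 := card_cong_mul_le T m hm (w 0) (∑ j : Fin k, w j.succ * b' j + c)
    have e : Int.gcd (w 0) (m : ℤ) = m' := by
      rw [hm', Nat.gcd_comm]
      simp [Int.gcd]
    rw [e] at h1
    refine le_trans (Nat.mul_le_mul_right _ ?_) h1
    apply Finset.card_le_card_of_injOn (fun b : Fin (k + 1) → ℤ => b 0)
    · intro b hb
      have hb := Finset.mem_coe.mp hb
      rw [Finset.mem_filter, hS, Finset.mem_filter, mem_cube] at hb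
      apply Finset.mem_coe.mpr
      rw [Finset.mem_filter]
      refine ⟨by simpa [box] using mem_box.mp (hb.1.1 0), ?_⟩
      have h2 := hb.1.2
      rw [Fin.sum_univ_succ] at h2
      rw [← hb.2]
      have e2 : w 0 * b 0 + (∑ j : Fin k, w j.succ * b j.succ + c)
          = w 0 * b 0 + ∑ j : Fin k, w j.succ * b j.succ + c := by ring
      rw [e2]
      exact h2
    · intro b hb b2 hb2 h
      have hb := Finset.mem_coe.mp hb
      have hb2 := Finset.mem_coe.mp hb2
      rw [Finset.mem_filter] at hb hb2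
      funext i
      refine Fin.cases ?_ (fun j => ?_) i
      · exact h
      · have := hb.2.trans hb2.2.symm
        exact congrFun this j
  have hcard : S.card = ∑ b' ∈ S', (S.filter (fun b => (fun j : Fin k => b j.succ) = b')).card :=
    Finset.card_eq_sum_card_fiberwise (fun b hb => hmaps b hb)
  calc Ncount (k + 1) T m w c * (m / m') = S.card * (m / m') := rfl
    _ = ∑ b' ∈ S', (S.filter (fun b => (fun j : Fin k => b j.succ) = b')).card * (m / m') := by
      rw [hcard, Finset.sum_mul]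
    _ ≤ ∑ _b' ∈ S', (2 * T + m / m') := Finset.sum_le_sum hfib
    _ = S'.card * (2 * T + m / m') := by simp
    _ = Ncount k T m' (fun j => w j.succ) c * (2 * T + m / m') := rfl

lemma Ncount_bound (T : ℕ) : ∀ (k m : ℕ) (_hm : 0 < m) (w : Fin k → ℤ) (c : ℤ),
    Ncount k T m w c * (m / chainGcd k m w) * (2 * T + 1)
      ≤ (2 * T + m / chainGcd k m w) * (2 * T + 1) ^ k
  | 0, m, hm, w, c => by
    have h1 : Ncount 0 T m w c ≤ 1 := by
      unfold Ncount
      refine le_trans (Finset.card_filter_le _ _) ?_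
      simp [cube]
    have h2 : m / chainGcd 0 m w = 1 := by
      simp [chainGcd, Nat.div_self hm]
    rw [h2]
    have : Ncount 0 T m w c * 1 * (2 * T + 1) ≤ 1 * 1 * (2 * T + 1) := by gcongr
    simpa using this
  | k + 1, m, hm, w, c => by
    set m' := Nat.gcd m (w 0).natAbs with hm'
    have hm'pos : 0 < m' := Nat.gcd_pos_of_pos_left _ hm
    set g := chainGcd k m' (fun j => w j.succ) with hg
    have hgdef : chainGcd (k + 1) m w = g := rfl
    have hgpos : 0 < g := chainGcd_pos k m' _ hm'pos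
    have hgm' : g ∣ m' := chainGcd_dvd_left k m' _
    have hm'm : m' ∣ m := Nat.gcd_dvd_left _ _
    set u := m / m' with hu
    set μ := m' / g with hμ
    have hupos : 0 < u := Nat.div_pos (Nat.le_of_dvd hm hm'm) hm'pos
    have hμpos : 0 < μ := Nat.div_pos (Nat.le_of_dvd hm'pos hgm') hgpos
    have hmg : m / g = u * μ := by
      have h1 : m = u * m' := (Nat.div_mul_cancel hm'm).symm
      have h2 : m' = μ * g := (Nat.div_mul_cancel hgm').symm
      have h3 : m = (u * μ) * g := by
        calc m = u * m' := h1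
          _ = u * (μ * g) := by rw [← h2]
          _ = (u * μ) * g := by ring
      calc m / g = ((u * μ) * g) / g := by rw [← h3]
        _ = u * μ := Nat.mul_div_cancel _ hgpos
    rw [hgdef, hmg]
    have ih := Ncount_bound T k m' hm'pos (fun j => w j.succ) c
    have hstep := Ncount_succ_le k T m hm w c
    have h5 : (2 * T + μ) * (2 * T + u) ≤ (2 * T + u * μ) * (2 * T + 1) := by
      have : u + μ ≤ 1 + u * μ := by nlinarith
      nlinarith
    calc Ncount (k + 1) T m w c * (u * μ) * (2 * T + 1)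
        = (Ncount (k + 1) T m w c * u) * (μ * (2 * T + 1)) := by ring
      _ ≤ (Ncount k T m' (fun j => w j.succ) c * (2 * T + u)) * (μ * (2 * T + 1)) :=
        Nat.mul_le_mul_right _ hstep
      _ = (Ncount k T m' (fun j => w j.succ) c * μ * (2 * T + 1)) * (2 * T + u) := by ring
      _ ≤ ((2 * T + μ) * (2 * T + 1) ^ k) * (2 * T + u) := Nat.mul_le_mul_right _ ih
      _ = ((2 * T + μ) * (2 * T + u)) * (2 * T + 1) ^ k := by ring
      _ ≤ ((2 * T + u * μ) * (2 * T + 1)) * (2 * T + 1) ^ k := Nat.mul_le_mul_right _ h5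
      _ = (2 * T + u * μ) * (2 * T + 1) ^ (k + 1) := by ring

/-- The number of `b ∈ [-T, T]^d` orthogonal to the integer vector `y`. -/
noncomputable def Lint (d T : ℕ) (y : Fin d → ℤ) : ℕ :=
  ((cube d T).filter (fun b => ∑ j, y j * b j = 0)).card

lemma Lint_le_Ncount (k T : ℕ) (y : Fin (k + 1) → ℤ) (i : Fin (k + 1)) (hi : y i ≠ 0) :
    Lint (k + 1) T y ≤ Ncount k T (y i).natAbs (fun j => y (i.succAbove j)) 0 := by
  apply Finset.card_le_card_of_injOn
    (fun b : Fin (k + 1) → ℤ => (fun j : Fin k => b (i.succAbove j)))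
  · intro b hb
    have hb := Finset.mem_coe.mp hb
    rw [Finset.mem_filter, mem_cube] at hb
    apply Finset.mem_coe.mpr
    rw [Finset.mem_filter, mem_cube]
    refine ⟨fun j => hb.1 _, ?_⟩
    have h1 := hb.2
    rw [Fin.sum_univ_succAbove _ i] at h1
    have e : ∑ j : Fin k, y (i.succAbove j) * b (i.succAbove j) + 0 = -(y i * b i) := by
      linarith
    rw [e]
    exact (dvd_neg).mpr (dvd_mul_of_dvd_left (Int.natAbs_dvd.mpr (dvd_refl _)) _)
  · intro b hb b2 hb2 h
    have hb := Finset.mem_coe.mp hb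
    have hb2 := Finset.mem_coe.mp hb2
    rw [Finset.mem_filter] at hb hb2
    have h1 := hb.2
    have h2 := hb2.2
    rw [Fin.sum_univ_succAbove _ i] at h1 h2
    have hsum : ∑ j : Fin k, y (i.succAbove j) * b (i.succAbove j)
        = ∑ j : Fin k, y (i.succAbove j) * b2 (i.succAbove j) := by
      apply Finset.sum_congr rfl
      intro j _
      have hj : b (i.succAbove j) = b2 (i.succAbove j) := congrFun h j
      rw [hj]
    have h3 : y i * b i = y i * b2 i := by linarith
    have h4 : b i = b2 i := mul_left_cancel₀ hi h3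
    funext l
    rcases Fin.eq_self_or_eq_succAbove i l with hl | ⟨j, hj⟩
    · rw [hl]; exact h4
    · rw [hj]; exact congrFun h j

lemma Lint_bound (k T : ℕ) (y : Fin (k + 1) → ℤ) (i : Fin (k + 1)) (hi : y i ≠ 0) :
    Lint (k + 1) T y
        * ((y i).natAbs / chainGcd k (y i).natAbs (fun j => y (i.succAbove j))) * (2 * T + 1)
      ≤ (2 * T + (y i).natAbs / chainGcd k (y i).natAbs (fun j => y (i.succAbove j)))
        * (2 * T + 1) ^ k := by
  have h1 := Lint_le_Ncount k T y i hi
  have h2 := Ncount_bound T k (y i).natAbs (Int.natAbs_pos.mpr hi)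
    (fun j => y (i.succAbove j)) 0
  refine le_trans ?_ h2
  gcongr

end Vale.Agent.Lib.P054
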