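import Mathlib

namespace Vale.Agent.Lib.P054

open Finset

/-- A set of integers in `[-T, T]` lying in one residue class mod `m` has at most `2T/m + 1`
elements. -/
lemma card_mul_le_of_modEq (T m : ℕ) (hm : 0 < m) (S : Finset ℤ)
    (hS : ∀ x ∈ S, -(T : ℤ) ≤ x ∧ x ≤ T)
    (hcong : ∀ x ∈ S, ∀ y ∈ S, (m : ℤ) ∣ x - y) :
    S.card * m ≤ 2 * T + m := by
  have hm' : (0 : ℤ) < m := by exact_mod_cast hm
  have h1 : S.card ≤ (Finset.range (2 * T / m + 1)).card := by
    apply Finset.card_le_card_of_injOn (fun x : ℤ => ((x + (T : ℤ)) / (m : ℤ)).toNat)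
    · intro x hx
      have hx' := hS x hx
      simp only [Finset.coe_range, Set.mem_Iio]
      have h0 : 0 ≤ (x + T) / (m : ℤ) := Int.ediv_nonneg (by linarith) hm'.le
      have h2 : (x + T) / (m : ℤ) ≤ ((2 * T / m : ℕ) : ℤ) := by
        push_cast
        apply Int.ediv_le_ediv hm'
        linarith
      omega
    · intro x hx y hy hxy
      have hx' := hS x hx
      have hy' := hS y hy
      have h0x : 0 ≤ (x + T) / (m : ℤ) := Int.ediv_nonneg (by linarith) hm'.le
      have h0y : 0 ≤ (y + T) / (m : ℤ) := Int.ediv_nonneg (by linarith) hm'.le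
      have hq : (x + T) / (m : ℤ) = (y + T) / (m : ℤ) := by
        have := congrArg (Int.ofNat) hxy
        simp only [Int.ofNat_eq_natCast] at this
        rw [Int.toNat_of_nonneg h0x, Int.toNat_of_nonneg h0y] at this
        exact this
      have hd : (m : ℤ) ∣ (x + T) - (y + T) := by
        have := hcong x hx y hy
        simpa using this
      have hmod : (x + T) % (m : ℤ) = (y + T) % (m : ℤ) :=
        Int.emod_eq_emod_iff_emod_sub_eq_zero.mpr (Int.emod_eq_zero_of_dvd hd)
      have e1 := Int.emod_add_mul_ediv (x + T) m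
      have e2 := Int.emod_add_mul_ediv (y + T) m
      rw [hq, hmod] at e1
      linarith
  rw [Finset.card_range] at h1
  calc S.card * m ≤ (2 * T / m + 1) * m := Nat.mul_le_mul_right m h1
    _ = (2 * T / m) * m + m := by ring
    _ ≤ 2 * T + m := by
      have := Nat.div_mul_le_self (2 * T) m
      omega

/-- The number of `x ∈ [-T, T]` with `n ∣ α x + γ`, times `n / gcd α n`, is at most
`2T + n / gcd α n`. -/
lemma card_cong_mul_le (T n : ℕ) (hn : 0 < n) (α γ : ℤ) :
    ((Finset.Icc (-(T : ℤ)) T).filter (fun x => (n : ℤ) ∣ α * x + γ)).card * (n / Int.gcd α n)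
      ≤ 2 * T + n / Int.gcd α n := by
  have hn' : (n : ℤ) ≠ 0 := by exact_mod_cast hn.ne'
  have hgpos : 0 < Int.gcd α n := Int.gcd_pos_of_ne_zero_right α hn'
  have hgdvd : Int.gcd α n ∣ n := by
    have := Int.gcd_dvd_right α (n : ℤ)
    exact_mod_cast this
  have hmpos : 0 < n / Int.gcd α n := Nat.div_pos (Nat.le_of_dvd hn hgdvd) hgpos
  apply card_mul_le_of_modEq T _ hmpos
  · intro x hx
    simpa using (Finset.mem_filter.mp hx).1
  · intro x hx y hy
    have hx' := (Finset.mem_filter.mp hx).2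
    have hy' := (Finset.mem_filter.mp hy).2
    have hsub : (n : ℤ) ∣ α * (x - y) := by
      have := dvd_sub hx' hy'
      have e : α * x + γ - (α * y + γ) = α * (x - y) := by ring
      rwa [e] at this
    obtain ⟨α', n', hcop, hα, hnn⟩ := Int.exists_gcd_one (m := α) (n := (n : ℤ)) (by exact_mod_cast hgpos)
    have hg0 : ((Int.gcd α n : ℕ) : ℤ) ≠ 0 := by exact_mod_cast hgpos.ne'
    have hn'eq : ((n / Int.gcd α n : ℕ) : ℤ) = n' := by
      have h1 : ((n / Int.gcd α n : ℕ) : ℤ) = (n : ℤ) / (Int.gcd α n : ℤ) := by push_cast; rfl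
      rw [h1]
      exact Int.ediv_eq_of_eq_mul_left hg0 hnn
    rw [hn'eq]
    have h2 : n' * (Int.gcd α n : ℤ) ∣ (α' * (x - y)) * (Int.gcd α n : ℤ) := by
      have e : (α' * (x - y)) * (Int.gcd α n : ℤ) = α * (x - y) := by
        conv_rhs => rw [hα]
        ring
      rw [e, ← hnn]
      exact hsub
    have h3 : n' ∣ α' * (x - y) := (mul_dvd_mul_iff_right hg0).mp h2
    exact Int.dvd_of_dvd_mul_right_of_gcd_one h3 (by rw [Int.gcd_comm]; exact hcop)

end Vale.Agent.Lib.P054
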