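import Vale.Agent.Lib.P054.Grid

namespace Vale.Agent.Lib.P054

open Finset

lemma grid_energy_bound (d : ℕ) (hd : 3 ≤ d) (t : ℕ) (a : Fin d → ℤ)
    (P : Finset (EuclideanSpace ℝ (Fin d)))
    (hP : ∀ p ∈ P, ∀ i, ∃ k : ℤ, a i ≤ k ∧ k < a i + t ∧ p i = (k : ℝ))
    (hn : 1 ≤ P.card) :
    ((P.card : ℝ) - 1) ^ 2
      ≤ 12096 * 25 ^ (d - 3) * (t : ℝ) ^ (2 * d - 2)
        * ((P.offDiag.image (fun pq => dist pq.1 pq.2)).card : ℝ) := by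
  have h := real_distinct d t hd a P hP
  have h' : (((P.card - 1) ^ 2 : ℕ) : ℝ)
      ≤ (((P.offDiag.image (fun pq => dist pq.1 pq.2)).card
        * (12096 * 25 ^ (d - 3) * t ^ (2 * d - 2)) : ℕ) : ℝ) := by
    exact_mod_cast h
  push_cast [Nat.cast_sub hn] at h'
  linarith

lemma dense_grid_bound (d : ℕ) (hd : 3 ≤ d) (δ : ℝ) (hδ : 0 < δ) (t : ℕ) (a : Fin d → ℤ)
    (P : Finset (EuclideanSpace ℝ (Fin d)))
    (hP : ∀ p ∈ P, ∀ i, ∃ k : ℤ, a i ≤ k ∧ k < a i + t ∧ p i = (k : ℝ))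
    (hn : 2 ≤ P.card) (hdense : δ * (t : ℝ) ^ d ≤ P.card) :
    δ ^ 2 / (48384 * 25 ^ (d - 3)) * (P.card : ℝ) ^ ((2 : ℝ) / d)
      ≤ ((P.offDiag.image (fun pq => dist pq.1 pq.2)).card : ℝ) := by
  set n : ℝ := (P.card : ℝ) with hn'
  set Δ : ℝ := ((P.offDiag.image (fun pq => dist pq.1 pq.2)).card : ℝ) with hΔ
  have hn2 : (2 : ℝ) ≤ n := by rw [hn']; exact_mod_cast hn
  have hE := grid_energy_bound d hd t a P hP (by omega)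
  have hcard : n ≤ (t : ℝ) ^ d := by
    rw [hn']
    exact_mod_cast real_card_le d t a P hP
  have htpos : (0 : ℝ) < t := by
    rcases Nat.eq_zero_or_pos t with h0 | hpos
    · exfalso
      rw [h0] at hcard
      have hd0 : d ≠ 0 := by omega
      simp [hd0] at hcard
      linarith
    · exact_mod_cast hpos
  have hC : (0 : ℝ) < 12096 * 25 ^ (d - 3) := by positivity
  -- (n - 1)^2 ≥ n^2 / 4 ≥ δ^2 t^(2d) / 4
  have h1 : δ ^ 2 * ((t : ℝ) ^ d) ^ 2 / 4 ≤ (n - 1) ^ 2 := by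
    have h2 : δ * (t : ℝ) ^ d / 2 ≤ n - 1 := by linarith
    have h3 : 0 ≤ δ * (t : ℝ) ^ d / 2 := by positivity
    calc δ ^ 2 * ((t : ℝ) ^ d) ^ 2 / 4 = (δ * (t : ℝ) ^ d / 2) ^ 2 := by ring
      _ ≤ (n - 1) ^ 2 := pow_le_pow_left₀ h3 h2 2
  have hpow : ((t : ℝ) ^ d) ^ 2 = (t : ℝ) ^ (2 * d - 2) * (t : ℝ) ^ 2 := by
    rw [← pow_mul, ← pow_add]
    congr 1
    omega
  have h4 : δ ^ 2 * (t : ℝ) ^ 2 / 4 * (t : ℝ) ^ (2 * d - 2)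
      ≤ 12096 * 25 ^ (d - 3) * Δ * (t : ℝ) ^ (2 * d - 2) := by
    calc δ ^ 2 * (t : ℝ) ^ 2 / 4 * (t : ℝ) ^ (2 * d - 2)
        = δ ^ 2 * ((t : ℝ) ^ d) ^ 2 / 4 := by rw [hpow]; ring
      _ ≤ (n - 1) ^ 2 := h1
      _ ≤ 12096 * 25 ^ (d - 3) * (t : ℝ) ^ (2 * d - 2) * Δ := hE
      _ = 12096 * 25 ^ (d - 3) * Δ * (t : ℝ) ^ (2 * d - 2) := by ring
  have h5 : δ ^ 2 * (t : ℝ) ^ 2 / 4 ≤ 12096 * 25 ^ (d - 3) * Δ :=
    le_of_mul_le_mul_right h4 (by positivity)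
  -- n^(2/d) ≤ t^2
  have hdpos : (0 : ℝ) < d := by exact_mod_cast (by omega : 0 < d)
  have h6 : n ^ ((2 : ℝ) / d) ≤ (t : ℝ) ^ 2 := by
    have hn0 : (0 : ℝ) ≤ n := by linarith
    calc n ^ ((2 : ℝ) / d) ≤ ((t : ℝ) ^ d) ^ ((2 : ℝ) / d) :=
          Real.rpow_le_rpow hn0 hcard (by positivity)
      _ = (t : ℝ) ^ 2 := by
        rw [← Real.rpow_natCast, ← Real.rpow_mul htpos.le]
        have : (d : ℝ) * ((2 : ℝ) / d) = 2 := by field_simp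
        rw [this]
        norm_num
  have h7 : δ ^ 2 / (48384 * 25 ^ (d - 3)) * n ^ ((2 : ℝ) / d)
      ≤ δ ^ 2 / (48384 * 25 ^ (d - 3)) * (t : ℝ) ^ 2 := by
    apply mul_le_mul_of_nonneg_left h6
    positivity
  have h8 : δ ^ 2 / (48384 * 25 ^ (d - 3)) * (t : ℝ) ^ 2 ≤ Δ := by
    rw [div_mul_eq_mul_div, div_le_iff₀ (by positivity)]
    linarith
  linarith

end Vale.Agent.Lib.P054
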