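import Vale.Agent.Lib.P054.Three

namespace Vale.Agent.Lib.P054

open Finset

/-- Integer vectors with all coordinates in `[-T, T]`. -/
noncomputable def cube (d T : ℕ) : Finset (Fin d → ℤ) :=
  Fintype.piFinset (fun _ => box T)

lemma mem_cube {d T : ℕ} {a : Fin d → ℤ} : a ∈ cube d T ↔ ∀ i, a i ∈ box T := by
  simp [cube, Fintype.mem_piFinset]

/-- Pairs `(a, b)` of integer vectors in `[-T, T]^d` with `a · b = c`. -/
noncomputable def Od (d T : ℕ) (c : ℤ) : Finset ((Fin d → ℤ) × (Fin d → ℤ)) :=
  (cube d T ×ˢ cube d T).filter (fun ab => ∑ i, ab.1 i * ab.2 i = c)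

lemma Od_three_card_le (T : ℕ) (c : ℤ) (hT : 1 ≤ T) : (Od 3 T c).card ≤ 756 * T ^ 4 := by
  refine le_trans ?_ (S3_card_le T c hT)
  apply Finset.card_le_card_of_injOn
    (fun ab : (Fin 3 → ℤ) × (Fin 3 → ℤ) =>
      ((ab.1 0, ab.1 1, ab.1 2), (ab.2 0, ab.2 1, ab.2 2)))
  · intro ab hab
    have hab := Finset.mem_coe.mp hab
    simp only [Od, Finset.mem_filter, Finset.mem_product, mem_cube] at hab
    apply Finset.mem_coe.mpr
    simp only [S3, Finset.mem_filter, Finset.mem_product]
    refine ⟨⟨⟨hab.1.1 0, hab.1.1 1, hab.1.1 2⟩, ⟨hab.1.2 0, hab.1.2 1, hab.1.2 2⟩⟩, ?_⟩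
    have := hab.2
    rw [Fin.sum_univ_three] at this
    exact this
  · intro ab _ ab' _ h
    simp only [Prod.mk.injEq] at h
    obtain ⟨⟨h1, h2, h3⟩, ⟨h4, h5, h6⟩⟩ := h
    apply Prod.ext
    · funext i
      fin_cases i
      · exact h1
      · exact h2
      · exact h3
    · funext i
      fin_cases i
      · exact h4
      · exact h5
      · exact h6

lemma Od_succ_card_le (d T : ℕ) (N : ℕ) (hN : ∀ c, (Od d T c).card ≤ N) (c : ℤ) :
    (Od (d + 1) T c).card ≤ N * (2 * T + 1) ^ 2 := by
  have h1 : (Od (d + 1) T c).card ≤ N * (box T ×ˢ box T).card := by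
    apply Finset.card_le_mul_card_image_of_maps_to
      (f := fun ab : (Fin (d + 1) → ℤ) × (Fin (d + 1) → ℤ) => (ab.1 0, ab.2 0))
    · intro ab hab
      simp only [Od, Finset.mem_filter, Finset.mem_product, mem_cube] at hab
      simp only [Finset.mem_product]
      exact ⟨hab.1.1 0, hab.1.2 0⟩
    · rintro ⟨α, β⟩ _
      refine le_trans ?_ (hN (c - α * β))
      apply Finset.card_le_card_of_injOn
        (fun ab : (Fin (d + 1) → ℤ) × (Fin (d + 1) → ℤ) =>
          ((fun i : Fin d => ab.1 i.succ), (fun i : Fin d => ab.2 i.succ)))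
      · intro ab hab
        have hab := Finset.mem_coe.mp hab
        simp only [Od, Finset.mem_filter, Finset.mem_product, mem_cube] at hab
        apply Finset.mem_coe.mpr
        simp only [Od, Finset.mem_filter, Finset.mem_product, mem_cube]
        refine ⟨⟨fun i => hab.1.1.1 i.succ, fun i => hab.1.1.2 i.succ⟩, ?_⟩
        have h2 := hab.1.2
        rw [Fin.sum_univ_succ] at h2
        have h3 := hab.2
        simp only [Prod.mk.injEq] at h3
        rw [← h3.1, ← h3.2]
        linarith
      · intro ab hab ab' hab' h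
        have hab := Finset.mem_coe.mp hab
        have hab' := Finset.mem_coe.mp hab'
        simp only [Finset.mem_filter] at hab hab'
        have e1 := hab.2
        have e2 := hab'.2
        simp only [Prod.mk.injEq] at e1 e2 h
        apply Prod.ext
        · funext i
          refine Fin.cases ?_ (fun j => ?_) i
          · rw [e1.1, e2.1]
          · exact congrFun h.1 j
        · funext i
          refine Fin.cases ?_ (fun j => ?_) i
          · rw [e1.2, e2.2]
          · exact congrFun h.2 j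
  calc (Od (d + 1) T c).card ≤ N * (box T ×ˢ box T).card := h1
    _ = N * (2 * T + 1) ^ 2 := by
      rw [Finset.card_product, card_box]
      ring

lemma Od_card_le (d T : ℕ) (hd : 3 ≤ d) (hT : 1 ≤ T) :
    ∀ c, (Od d T c).card ≤ 756 * T ^ 4 * (2 * T + 1) ^ (2 * (d - 3)) := by
  induction d, hd using Nat.le_induction with
  | base =>
    intro c
    simpa using Od_three_card_le T c hT
  | succ d hd ih =>
    intro c
    have := Od_succ_card_le d T _ ih c
    calc (Od (d + 1) T c).card
        ≤ 756 * T ^ 4 * (2 * T + 1) ^ (2 * (d - 3)) * (2 * T + 1) ^ 2 := this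
      _ = 756 * T ^ 4 * (2 * T + 1) ^ (2 * (d + 1 - 3)) := by
        have e : 2 * (d + 1 - 3) = 2 * (d - 3) + 2 := by omega
        rw [e, pow_add]
        ring

/-- The squared Euclidean norm of an integer vector. -/
def nsq {d : ℕ} (v : Fin d → ℤ) : ℤ := ∑ i, v i ^ 2

/-- Pairs of integer vectors in `[-t, t]^d` having the same norm. -/
noncomputable def Eset (d t : ℕ) : Finset ((Fin d → ℤ) × (Fin d → ℤ)) :=
  (cube d t ×ˢ cube d t).filter (fun uv => nsq uv.1 = nsq uv.2)

lemma Eset_card_le_Od (d t : ℕ) : (Eset d t).card ≤ (Od d (2 * t) 0).card := by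
  apply Finset.card_le_card_of_injOn
    (fun uv : (Fin d → ℤ) × (Fin d → ℤ) => (uv.1 - uv.2, uv.1 + uv.2))
  · intro uv huv
    have huv := Finset.mem_coe.mp huv
    simp only [Eset, Finset.mem_filter, Finset.mem_product, mem_cube, mem_box] at huv
    apply Finset.mem_coe.mpr
    simp only [Od, Finset.mem_filter, Finset.mem_product, mem_cube, mem_box, Pi.sub_apply,
      Pi.add_apply]
    refine ⟨⟨fun i => ?_, fun i => ?_⟩, ?_⟩
    · have h1 := huv.1.1 i
      have h2 := huv.1.2 i
      push_cast
      constructor <;> linarith [h1.1, h1.2, h2.1, h2.2]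
    · have h1 := huv.1.1 i
      have h2 := huv.1.2 i
      push_cast
      constructor <;> linarith [h1.1, h1.2, h2.1, h2.2]
    · have h3 := huv.2
      simp only [nsq] at h3
      have : ∑ i, (uv.1 i - uv.2 i) * (uv.1 i + uv.2 i) = ∑ i, uv.1 i ^ 2 - ∑ i, uv.2 i ^ 2 := by
        rw [← Finset.sum_sub_distrib]
        apply Finset.sum_congr rfl
        intro i _
        ring
      rw [this, h3]
      ring
  · intro uv _ uv' _ h
    simp only [Prod.mk.injEq] at h
    obtain ⟨h1, h2⟩ := h
    have e1 : uv.1 = uv'.1 := by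
      funext i
      have a1 := congrFun h1 i
      have a2 := congrFun h2 i
      simp only [Pi.sub_apply, Pi.add_apply] at a1 a2
      linarith
    have e2 : uv.2 = uv'.2 := by
      funext i
      have a1 := congrFun h1 i
      have a2 := congrFun h2 i
      simp only [Pi.sub_apply, Pi.add_apply] at a1 a2
      linarith
    exact Prod.ext e1 e2

lemma Eset_card_le (d t : ℕ) (hd : 3 ≤ d) (ht : 1 ≤ t) :
    (Eset d t).card ≤ 12096 * 25 ^ (d - 3) * t ^ (2 * d - 2) := by
  have h1 := Eset_card_le_Od d t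
  have h2 := Od_card_le d (2 * t) hd (by omega) 0
  have h3 : 2 * (2 * t) + 1 ≤ 5 * t := by omega
  calc (Eset d t).card ≤ 756 * (2 * t) ^ 4 * (2 * (2 * t) + 1) ^ (2 * (d - 3)) := h1.trans h2
    _ ≤ 756 * (2 * t) ^ 4 * (5 * t) ^ (2 * (d - 3)) := by gcongr
    _ = 12096 * 25 ^ (d - 3) * t ^ (2 * d - 2) := by
      have e : 2 * d - 2 = 4 + 2 * (d - 3) := by omega
      rw [e, mul_pow, pow_mul, pow_add, mul_pow]
      have : (5 : ℕ) ^ 2 = 25 := by norm_num
      rw [this, pow_mul]
      ring

/-- Collision counting: `|s|^2 ≤ |φ(s)| · #{(u, v) ∈ s × s : φ u = φ v}`. -/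
lemma card_sq_le_image_mul_collisions {α β : Type*} [DecidableEq α] [DecidableEq β]
    (s : Finset α) (φ : α → β) :
    s.card ^ 2 ≤ (s.image φ).card * ((s ×ˢ s).filter (fun uv => φ uv.1 = φ uv.2)).card := by
  have h1 : s.card = ∑ m ∈ s.image φ, (s.filter (fun a => φ a = m)).card :=
    Finset.card_eq_sum_card_image φ s
  have h2 : ((s ×ˢ s).filter (fun uv => φ uv.1 = φ uv.2)).card
      = ∑ m ∈ s.image φ, (s.filter (fun a => φ a = m)).card ^ 2 := by
    rw [Finset.card_filter, Finset.sum_product]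
    have h3 : ∀ u ∈ s, ∑ v ∈ s, (if φ u = φ v then 1 else 0)
        = (s.filter (fun a => φ a = φ u)).card := by
      intro u _
      rw [Finset.card_filter]
      apply Finset.sum_congr rfl
      intro v _
      by_cases h : φ u = φ v
      · simp [h]
      · have h' : ¬ φ v = φ u := fun e => h e.symm
        simp [h, h']
    rw [Finset.sum_congr rfl h3]
    rw [← Finset.sum_fiberwise_of_maps_to (g := φ) (t := s.image φ)
      (fun a ha => Finset.mem_image_of_mem φ ha)]
    apply Finset.sum_congr rfl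
    intro m _
    rw [sq, ← smul_eq_mul, ← Finset.sum_const]
    apply Finset.sum_congr rfl
    intro u hu
    rw [(Finset.mem_filter.mp hu).2]
  rw [h2]
  calc s.card ^ 2 = (∑ m ∈ s.image φ, (s.filter (fun a => φ a = m)).card) ^ 2 := by rw [← h1]
    _ ≤ (s.image φ).card * ∑ m ∈ s.image φ, (s.filter (fun a => φ a = m)).card ^ 2 :=
      sq_sum_le_card_mul_sum_sq

end Vale.Agent.Lib.P054
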