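import Vale.Agent.Lib.P054.Cong

namespace Vale.Agent.Lib.P054

open Finset

/-- The integer interval `[-T, T]`. -/
noncomputable def box (T : ℕ) : Finset ℤ := Finset.Icc (-(T : ℤ)) T

lemma mem_box {T : ℕ} {x : ℤ} : x ∈ box T ↔ -(T : ℤ) ≤ x ∧ x ≤ T := by
  simp [box]

lemma card_box (T : ℕ) : (box T).card = 2 * T + 1 := by
  simp [box]
  omega

/-- Solutions `(p, q, r) ∈ [-T, T]^3` of `x p + y q + z r = c`. -/
noncomputable def fib (T : ℕ) (x y z c : ℤ) : Finset (ℤ × ℤ × ℤ) :=
  (box T ×ˢ box T ×ˢ box T).filter (fun b => x * b.1 + y * b.2.1 + z * b.2.2 = c)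

lemma fib_card_mul_le (T : ℕ) (x y z c : ℤ) (hx : x ≠ 0) :
    (fib T x y z c).card * x.natAbs
      ≤ 4 * T ^ 2 * Int.gcd (Int.gcd x y) z + (4 * T + 1) * x.natAbs := by
  set n := x.natAbs with hn
  have hnpos : 0 < n := Int.natAbs_pos.mpr hx
  set g := Int.gcd x y with hg
  have hgpos : 0 < g := Int.gcd_pos_of_ne_zero_left y hx
  set g3 := Int.gcd (g : ℤ) z with hg3
  have hg3pos : 0 < g3 := Int.gcd_pos_of_ne_zero_left z (by exact_mod_cast hgpos.ne')
  have hgn : g ∣ n := by
    have := Int.gcd_dvd_left x y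
    rw [hn]
    exact Int.natCast_dvd.mp this
  have hg3g : g3 ∣ g := by
    have := Int.gcd_dvd_left (g : ℤ) z
    exact_mod_cast this
  -- the sets R and Q
  set R := (box T).filter (fun r => (g : ℤ) ∣ z * r + (-c)) with hR
  set Q : ℤ → Finset ℤ := fun r => (box T).filter (fun q => (n : ℤ) ∣ y * q + (z * r - c)) with hQ
  have hRcard : R.card * (g / g3) ≤ 2 * T + g / g3 := by
    have := card_cong_mul_le T g hgpos z (-c)
    have e : Int.gcd z (g : ℤ) = g3 := by rw [hg3, Int.gcd_comm]
    rw [e] at this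
    exact this
  have hQcard : ∀ r, (Q r).card * (n / g) ≤ 2 * T + n / g := by
    intro r
    have := card_cong_mul_le T n hnpos y (z * r - c)
    have e : Int.gcd y (n : ℤ) = g := by
      rw [hg, hn, Int.gcd_comm x y]
      simp [Int.gcd, Int.natAbs_abs]
    rw [e] at this
    exact this
  -- injection
  have hinj : (fib T x y z c).card ≤ (R.sigma Q).card := by
    apply Finset.card_le_card_of_injOn (fun b : ℤ × ℤ × ℤ => (⟨b.2.2, b.2.1⟩ : Σ _ : ℤ, ℤ))
    · intro b hb
      have hb := Finset.mem_coe.mp hb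
      simp only [fib, Finset.mem_filter, Finset.mem_product] at hb
      obtain ⟨⟨hp, hq, hr⟩, heq⟩ := hb
      simp only [Finset.coe_sigma, Set.mem_sigma_iff, Finset.mem_coe]
      have hxn : (n : ℤ) ∣ x := by
        rw [hn]; exact Int.natAbs_dvd.mpr (dvd_refl x)
      have hgx : (g : ℤ) ∣ x := Int.gcd_dvd_left x y
      have hgy : (g : ℤ) ∣ y := Int.gcd_dvd_right x y
      constructor
      · rw [hR, Finset.mem_filter]
        refine ⟨hr, ?_⟩
        have e : z * b.2.2 + -c = -(x * b.1 + y * b.2.1) := by linarith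
        rw [e]
        exact (dvd_neg).mpr (dvd_add (dvd_mul_of_dvd_left hgx _) (dvd_mul_of_dvd_left hgy _))
      · rw [hQ]
        simp only [Finset.mem_filter]
        refine ⟨hq, ?_⟩
        have e : y * b.2.1 + (z * b.2.2 - c) = -(x * b.1) := by linarith
        rw [e]
        exact (dvd_neg).mpr (dvd_mul_of_dvd_left hxn _)
    · intro b hb b' hb' hbb
      have hb := Finset.mem_coe.mp hb
      have hb' := Finset.mem_coe.mp hb'
      simp only [fib, Finset.mem_filter, Finset.mem_product] at hb hb'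
      simp only [Sigma.mk.injEq, heq_eq_eq] at hbb
      obtain ⟨h1, h2⟩ := hbb
      have h3 : x * b.1 = x * b'.1 := by
        have e1 := hb.2
        have e2 := hb'.2
        rw [h1, h2] at e1
        linarith
      have h4 : b.1 = b'.1 := mul_left_cancel₀ hx h3
      exact Prod.ext h4 (Prod.ext h2 h1)
  rw [Finset.card_sigma] at hinj
  -- arithmetic
  set u := n / g with hu
  set v := g / g3 with hv
  have hupos : 0 < u := Nat.div_pos (Nat.le_of_dvd hnpos hgn) hgpos
  have hvpos : 0 < v := Nat.div_pos (Nat.le_of_dvd hgpos hg3g) hg3pos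
  have hug : u * g = n := Nat.div_mul_cancel hgn
  have hvg : v * g3 = g := Nat.div_mul_cancel hg3g
  have h1 : (fib T x y z c).card * u ≤ R.card * (2 * T + u) := by
    calc (fib T x y z c).card * u ≤ (∑ r ∈ R, (Q r).card) * u := Nat.mul_le_mul_right u hinj
      _ = ∑ r ∈ R, (Q r).card * u := Finset.sum_mul _ _ _
      _ ≤ ∑ _r ∈ R, (2 * T + u) := Finset.sum_le_sum (fun r _ => hQcard r)
      _ = R.card * (2 * T + u) := by simp
  have h2 : (fib T x y z c).card * (u * v) ≤ (2 * T + v) * (2 * T + u) := by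
    calc (fib T x y z c).card * (u * v) = ((fib T x y z c).card * u) * v := by ring
      _ ≤ (R.card * (2 * T + u)) * v := Nat.mul_le_mul_right v h1
      _ = (R.card * v) * (2 * T + u) := by ring
      _ ≤ (2 * T + v) * (2 * T + u) := Nat.mul_le_mul_right _ hRcard
  have h3 : n = u * v * g3 := by
    rw [← hug, ← hvg]; ring
  have h4 : u + v ≤ 2 * (u * v) := by nlinarith
  calc (fib T x y z c).card * n = ((fib T x y z c).card * (u * v)) * g3 := by rw [h3]; ring
    _ ≤ ((2 * T + v) * (2 * T + u)) * g3 := Nat.mul_le_mul_right g3 h2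
    _ = 4 * T ^ 2 * g3 + (2 * T * (u + v) + u * v) * g3 := by ring
    _ ≤ 4 * T ^ 2 * g3 + (2 * T * (2 * (u * v)) + u * v) * g3 := by gcongr
    _ = 4 * T ^ 2 * g3 + (4 * T + 1) * n := by rw [h3]; ring

end Vale.Agent.Lib.P054
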