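import Vale.Agent.Lib.P054.Fiber

namespace Vale.Agent.Lib.P054

open Finset

/-- Number of multiples of `e` among the integers of absolute value at most `n`. -/
lemma card_multiples_mul_le (T n e : ℕ) (he : 0 < e) :
    ((box T).filter (fun y : ℤ => y.natAbs ≤ n ∧ e ∣ y.natAbs)).card * e ≤ 2 * n + e := by
  apply card_mul_le_of_modEq n e he
  · intro x hx
    have h := (Finset.mem_filter.mp hx).2.1
    constructor <;> omega
  · intro x hx y hy
    have h1 := (Finset.mem_filter.mp hx).2.2
    have h2 := (Finset.mem_filter.mp hy).2.2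
    have h1' : (e : ℤ) ∣ x := Int.natCast_dvd.mpr h1
    have h2' : (e : ℤ) ∣ y := Int.natCast_dvd.mpr h2
    exact dvd_sub h1' h2'

/-- The sum of `gcd (n, y, z)` over `|y|, |z| ≤ n` is at most `9 n σ(n)`. -/
lemma gcd_sum_le (T n : ℕ) (hn : 0 < n) :
    ∑ y ∈ box T, ∑ z ∈ box T,
        (if y.natAbs ≤ n ∧ z.natAbs ≤ n then Nat.gcd (Nat.gcd n y.natAbs) z.natAbs else 0)
      ≤ 9 * n * ∑ e ∈ n.divisors, e := by
  set χ : ℕ → ℤ → ℕ := fun e y => if y.natAbs ≤ n ∧ e ∣ y.natAbs then 1 else 0 with hχ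
  have hpt : ∀ y z : ℤ,
      (if y.natAbs ≤ n ∧ z.natAbs ≤ n then Nat.gcd (Nat.gcd n y.natAbs) z.natAbs else 0)
        ≤ ∑ e ∈ n.divisors, e * χ e y * χ e z := by
    intro y z
    split_ifs with h
    · set G := Nat.gcd (Nat.gcd n y.natAbs) z.natAbs with hG
      have hGn : G ∣ n := (Nat.gcd_dvd_left _ _).trans (Nat.gcd_dvd_left _ _)
      have hGy : G ∣ y.natAbs := (Nat.gcd_dvd_left _ _).trans (Nat.gcd_dvd_right _ _)
      have hGz : G ∣ z.natAbs := Nat.gcd_dvd_right _ _
      have hmem : G ∈ n.divisors := Nat.mem_divisors.mpr ⟨hGn, hn.ne'⟩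
      have hterm : G * χ G y * χ G z = G := by
        simp [hχ, h.1, h.2, hGy, hGz]
      calc G = G * χ G y * χ G z := hterm.symm
        _ ≤ ∑ e ∈ n.divisors, e * χ e y * χ e z :=
          Finset.single_le_sum (f := fun e => e * χ e y * χ e z) (fun _ _ => Nat.zero_le _) hmem
    · exact Nat.zero_le _
  have hcard : ∀ e, ∑ y ∈ box T, χ e y
      = ((box T).filter (fun y : ℤ => y.natAbs ≤ n ∧ e ∣ y.natAbs)).card := by
    intro e
    rw [Finset.card_filter]
  calc ∑ y ∈ box T, ∑ z ∈ box T,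
        (if y.natAbs ≤ n ∧ z.natAbs ≤ n then Nat.gcd (Nat.gcd n y.natAbs) z.natAbs else 0)
      ≤ ∑ y ∈ box T, ∑ z ∈ box T, ∑ e ∈ n.divisors, e * χ e y * χ e z :=
        Finset.sum_le_sum (fun y _ => Finset.sum_le_sum (fun z _ => hpt y z))
    _ = ∑ e ∈ n.divisors, e * (∑ y ∈ box T, χ e y) * (∑ z ∈ box T, χ e z) := by
        have h1 : ∑ y ∈ box T, ∑ z ∈ box T, ∑ e ∈ n.divisors, e * χ e y * χ e z
            = ∑ y ∈ box T, ∑ e ∈ n.divisors, ∑ z ∈ box T, e * χ e y * χ e z :=
          Finset.sum_congr rfl (fun y _ => Finset.sum_comm)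
        rw [h1, Finset.sum_comm]
        apply Finset.sum_congr rfl
        intro e _
        rw [mul_assoc, Finset.sum_mul_sum, Finset.mul_sum]
        apply Finset.sum_congr rfl
        intro y _
        rw [Finset.mul_sum]
        apply Finset.sum_congr rfl
        intro z _
        ring
    _ ≤ ∑ e ∈ n.divisors, 9 * n * (n / e) := by
        apply Finset.sum_le_sum
        intro e he
        have hen : e ∣ n := (Nat.mem_divisors.mp he).1
        have hepos : 0 < e := Nat.pos_of_mem_divisors he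
        have hele : e ≤ n := Nat.le_of_dvd hn hen
        have hne : n / e * e = n := Nat.div_mul_cancel hen
        have hc : ∑ y ∈ box T, χ e y ≤ 3 * (n / e) := by
          rw [hcard e]
          have h1 := card_multiples_mul_le T n e hepos
          have h2 : ((box T).filter (fun y : ℤ => y.natAbs ≤ n ∧ e ∣ y.natAbs)).card * e
              ≤ (3 * (n / e)) * e := by
            calc _ ≤ 2 * n + e := h1
              _ ≤ 3 * n := by omega
              _ = (3 * (n / e)) * e := by rw [mul_assoc, hne]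
          exact Nat.le_of_mul_le_mul_right h2 hepos
        calc e * (∑ y ∈ box T, χ e y) * (∑ z ∈ box T, χ e z)
            ≤ e * (3 * (n / e)) * (3 * (n / e)) := by gcongr
          _ = 9 * (n / e * e) * (n / e) := by ring
          _ = 9 * n * (n / e) := by rw [hne]
    _ = 9 * n * ∑ e ∈ n.divisors, e := by
        rw [← Finset.mul_sum, Nat.sum_div_divisors n (fun e => e)]

/-- The sum of `σ(|x|)` over `x ∈ [-T, T]` is at most `3 T^2`. -/
lemma sigma_sum_le (T : ℕ) :
    ∑ x ∈ box T, ∑ e ∈ (x.natAbs).divisors, e ≤ 3 * T ^ 2 := by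
  have hpt : ∀ x ∈ box T, ∑ e ∈ (x.natAbs).divisors, e
      = ∑ e ∈ Finset.Icc 1 T, (if x.natAbs ≠ 0 ∧ e ∣ x.natAbs then e else 0) := by
    intro x hx
    rw [← Finset.sum_filter]
    apply Finset.sum_congr _ (fun _ _ => rfl)
    ext e
    have hx' := mem_box.mp hx
    simp only [Nat.mem_divisors, Finset.mem_filter, Finset.mem_Icc]
    constructor
    · rintro ⟨h1, h2⟩
      have h3 : 0 < x.natAbs := Nat.pos_of_ne_zero h2
      have h4 := Nat.le_of_dvd h3 h1
      have h5 : 0 < e := Nat.pos_of_dvd_of_pos h1 h3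
      refine ⟨⟨h5, by omega⟩, h2, h1⟩
    · rintro ⟨_, h2, h1⟩
      exact ⟨h1, h2⟩
  rw [Finset.sum_congr rfl hpt, Finset.sum_comm]
  calc ∑ e ∈ Finset.Icc 1 T, ∑ x ∈ box T, (if x.natAbs ≠ 0 ∧ e ∣ x.natAbs then e else 0)
      ≤ ∑ e ∈ Finset.Icc 1 T, 3 * T := by
        apply Finset.sum_le_sum
        intro e he
        have he' := Finset.mem_Icc.mp he
        have h1 : ∑ x ∈ box T, (if x.natAbs ≠ 0 ∧ e ∣ x.natAbs then e else 0)
            ≤ ∑ x ∈ box T, (if x.natAbs ≤ T ∧ e ∣ x.natAbs then e else 0) := by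
          apply Finset.sum_le_sum
          intro x hx
          have hx' := mem_box.mp hx
          have hxT : x.natAbs ≤ T := by omega
          by_cases h : e ∣ x.natAbs
          · simp [h, hxT]
            split_ifs <;> omega
          · simp [h]
        have h2 : ∑ x ∈ box T, (if x.natAbs ≤ T ∧ e ∣ x.natAbs then e else 0)
            = ((box T).filter (fun y : ℤ => y.natAbs ≤ T ∧ e ∣ y.natAbs)).card * e := by
          rw [← Finset.sum_filter, Finset.sum_const, smul_eq_mul]
        have h3 := card_multiples_mul_le T T e (by omega)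
        omega
    _ = 3 * T ^ 2 := by
        rw [Finset.sum_const, Nat.card_Icc, smul_eq_mul]
        ring_nf
        simp
        ring

end Vale.Agent.Lib.P054
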