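import Vale.Agent.Lib.P054.Energy

namespace Vale.Agent.Lib.P054

open Finset

/-- Distinct squared distances of a set of integer points in `{1, .., t}^d`. -/
lemma int_distinct (d t : ℕ) (hd : 3 ≤ d) (ht : 1 ≤ t) (a : Fin d → ℤ) (P : Finset (Fin d → ℤ))
    (hP : ∀ p ∈ P, ∀ i, a i ≤ p i ∧ p i < a i + t) :
    (P.card - 1) ^ 2
      ≤ (P.offDiag.image (fun pq => nsq (pq.1 - pq.2))).card
        * (12096 * 25 ^ (d - 3) * t ^ (2 * d - 2)) := by
  set D := P.offDiag.image (fun pq : (Fin d → ℤ) × (Fin d → ℤ) => pq.1 - pq.2) with hD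
  have hDsub : D ⊆ cube d t := by
    intro v hv
    rw [hD, Finset.mem_image] at hv
    obtain ⟨pq, hpq, rfl⟩ := hv
    rw [Finset.mem_offDiag] at hpq
    rw [mem_cube]
    intro i
    rw [mem_box]
    have h1 := hP pq.1 hpq.1 i
    have h2 := hP pq.2 hpq.2.1 i
    simp only [Pi.sub_apply]
    constructor <;> linarith [h1.1, h1.2, h2.1, h2.2]
  have hcard : P.card - 1 ≤ D.card := by
    rcases P.eq_empty_or_nonempty with hemp | ⟨p0, hp0⟩
    · simp [hemp]
    · have h1 : (P.erase p0).image (fun p => p - p0) ⊆ D := by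
        intro v hv
        rw [Finset.mem_image] at hv
        obtain ⟨p, hp, rfl⟩ := hv
        rw [Finset.mem_erase] at hp
        rw [hD, Finset.mem_image]
        exact ⟨(p, p0), Finset.mem_offDiag.mpr ⟨hp.2, hp0, hp.1⟩, rfl⟩
      have h2 : ((P.erase p0).image (fun p => p - p0)).card = P.card - 1 := by
        rw [Finset.card_image_of_injective _ (fun a b hab => sub_left_injective hab),
          Finset.card_erase_of_mem hp0]
      rw [← h2]
      exact Finset.card_le_card h1
  have hcol := card_sq_le_image_mul_collisions D (nsq (d := d))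
  have himg : D.image nsq = P.offDiag.image (fun pq => nsq (pq.1 - pq.2)) := by
    rw [hD, Finset.image_image]
    rfl
  have hE : ((D ×ˢ D).filter (fun uv => nsq uv.1 = nsq uv.2)).card ≤ (Eset d t).card := by
    apply Finset.card_le_card
    intro uv huv
    simp only [Finset.mem_filter, Finset.mem_product] at huv
    simp only [Eset, Finset.mem_filter, Finset.mem_product]
    exact ⟨⟨hDsub huv.1.1, hDsub huv.1.2⟩, huv.2⟩
  calc (P.card - 1) ^ 2 ≤ D.card ^ 2 := Nat.pow_le_pow_left hcard 2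
    _ ≤ (D.image nsq).card * ((D ×ˢ D).filter (fun uv => nsq uv.1 = nsq uv.2)).card := hcol
    _ ≤ (D.image nsq).card * (Eset d t).card := Nat.mul_le_mul_left _ hE
    _ ≤ (D.image nsq).card * (12096 * 25 ^ (d - 3) * t ^ (2 * d - 2)) :=
      Nat.mul_le_mul_left _ (Eset_card_le d t hd ht)
    _ = _ := by rw [himg]

/-- The number of distinct distances of a set of grid points in Euclidean space. -/
lemma real_distinct (d t : ℕ) (hd : 3 ≤ d) (a : Fin d → ℤ)
    (P : Finset (EuclideanSpace ℝ (Fin d)))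
    (hP : ∀ p ∈ P, ∀ i, ∃ k : ℤ, a i ≤ k ∧ k < a i + t ∧ p i = (k : ℝ)) :
    (P.card - 1) ^ 2
      ≤ (P.offDiag.image (fun pq => dist pq.1 pq.2)).card
        * (12096 * 25 ^ (d - 3) * t ^ (2 * d - 2)) := by
  rcases P.eq_empty_or_nonempty with hemp | ⟨p0, hp0⟩
  · simp [hemp]
  have ht : 1 ≤ t := by
    have i0 : Fin d := ⟨0, by omega⟩
    obtain ⟨k, hk1, hk2, _⟩ := hP p0 hp0 i0
    omega
  set ι : EuclideanSpace ℝ (Fin d) → (Fin d → ℤ) := fun p i => ⌊p i⌋ with hι
  have hcoord : ∀ p ∈ P, ∀ i, ((ι p i : ℤ) : ℝ) = p i := by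
    intro p hp i
    obtain ⟨k, _, _, hk⟩ := hP p hp i
    simp only [hι, hk]
    simp
  have hinj : Set.InjOn ι (P : Set (EuclideanSpace ℝ (Fin d))) := by
    intro p hp q hq hpq
    apply PiLp.ext
    intro i
    rw [← hcoord p hp i, ← hcoord q hq i, hpq]
  set P' := P.image ι with hP'
  have hP'card : P'.card = P.card := Finset.card_image_of_injOn hinj
  have hP'grid : ∀ p ∈ P', ∀ i, a i ≤ p i ∧ p i < a i + t := by
    intro p' hp' i
    rw [hP', Finset.mem_image] at hp'
    obtain ⟨p, hp, rfl⟩ := hp'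
    obtain ⟨k, hk1, hk2, hk⟩ := hP p hp i
    have : ι p i = k := by
      simp only [hι, hk]
      simp
    rw [this]
    exact ⟨hk1, hk2⟩
  have hmain := int_distinct d t hd ht a P' hP'grid
  have hdist : ∀ p ∈ P, ∀ q ∈ P, (⌊dist p q ^ 2⌋ : ℤ) = nsq (ι p - ι q) := by
    intro p hp q hq
    have h1 : dist p q ^ 2 = ((nsq (ι p - ι q) : ℤ) : ℝ) := by
      rw [EuclideanSpace.dist_sq_eq]
      simp only [nsq, Pi.sub_apply]
      push_cast
      apply Finset.sum_congr rfl
      intro i _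
      rw [hcoord p hp i, hcoord q hq i, Real.dist_eq, sq_abs]
    rw [h1]
    exact Int.floor_intCast _
  have hsub : P'.offDiag.image (fun pq => nsq (pq.1 - pq.2))
      ⊆ (P.offDiag.image (fun pq => dist pq.1 pq.2)).image (fun r : ℝ => ⌊r ^ 2⌋) := by
    intro m hm
    rw [Finset.mem_image] at hm
    obtain ⟨pq', hpq', rfl⟩ := hm
    rw [Finset.mem_offDiag] at hpq'
    obtain ⟨h1, h2, h3⟩ := hpq'
    rw [hP', Finset.mem_image] at h1 h2
    obtain ⟨p, hp, hp'⟩ := h1
    obtain ⟨q, hq, hq'⟩ := h2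
    have hne : p ≠ q := by
      intro h
      apply h3
      rw [← hp', ← hq', h]
    rw [Finset.mem_image]
    refine ⟨dist p q, ?_, ?_⟩
    · rw [Finset.mem_image]
      exact ⟨(p, q), Finset.mem_offDiag.mpr ⟨hp, hq, hne⟩, rfl⟩
    · rw [hdist p hp q hq, hp', hq']
  have hle : (P'.offDiag.image (fun pq => nsq (pq.1 - pq.2))).card
      ≤ (P.offDiag.image (fun pq => dist pq.1 pq.2)).card :=
    (Finset.card_le_card hsub).trans Finset.card_image_le
  rw [hP'card] at hmain
  exact hmain.trans (Nat.mul_le_mul_right _ hle)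

/-- A set of grid points in a cube with `t` points per side has at most `t^d` elements. -/
lemma real_card_le (d t : ℕ) (a : Fin d → ℤ) (P : Finset (EuclideanSpace ℝ (Fin d)))
    (hP : ∀ p ∈ P, ∀ i, ∃ k : ℤ, a i ≤ k ∧ k < a i + t ∧ p i = (k : ℝ)) :
    P.card ≤ t ^ d := by
  set ι : EuclideanSpace ℝ (Fin d) → (Fin d → ℤ) := fun p i => ⌊p i⌋ with hι
  have hcoord : ∀ p ∈ P, ∀ i, ((ι p i : ℤ) : ℝ) = p i := by
    intro p hp i
    obtain ⟨k, _, _, hk⟩ := hP p hp i
    simp only [hι, hk]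
    simp
  have hinj : Set.InjOn ι (P : Set (EuclideanSpace ℝ (Fin d))) := by
    intro p hp q hq hpq
    apply PiLp.ext
    intro i
    rw [← hcoord p hp i, ← hcoord q hq i, hpq]
  have hsub : P.image ι ⊆ Fintype.piFinset (fun i => Finset.Ico (a i) (a i + t)) := by
    intro p' hp'
    rw [Finset.mem_image] at hp'
    obtain ⟨p, hp, rfl⟩ := hp'
    rw [Fintype.mem_piFinset]
    intro i
    obtain ⟨k, hk1, hk2, hk⟩ := hP p hp i
    have : ι p i = k := by
      simp only [hι, hk]
      simp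
    rw [this, Finset.mem_Ico]
    exact ⟨hk1, hk2⟩
  calc P.card = (P.image ι).card := (Finset.card_image_of_injOn hinj).symm
    _ ≤ (Fintype.piFinset (fun i => Finset.Ico (a i) (a i + t))).card := Finset.card_le_card hsub
    _ = t ^ d := by
      rw [Fintype.card_piFinset]
      simp

end Vale.Agent.Lib.P054
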