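import Vale.Agent.Lib.P054.Prim

namespace Vale.Agent.Lib.P054

open Finset

lemma card_cube (d T : ℕ) : (cube d T).card = (2 * T + 1) ^ d := by
  simp [cube, Fintype.card_piFinset, card_box]

lemma face_card (k T : ℕ) (i : Fin (k + 1)) (x : ℤ) :
    ((cube (k + 1) T).filter
      (fun y => y i = x ∧ ∀ j, (y j).natAbs ≤ x.natAbs)).card ≤ (2 * x.natAbs + 1) ^ k := by
  rw [← card_cube k x.natAbs]
  apply Finset.card_le_card_of_injOn
    (fun y : Fin (k + 1) → ℤ => (fun j : Fin k => y (i.succAbove j)))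
  · intro y hy
    have hy := Finset.mem_coe.mp hy
    rw [Finset.mem_filter] at hy
    apply Finset.mem_coe.mpr
    rw [mem_cube]
    intro j
    rw [mem_box]
    have := hy.2.2 (i.succAbove j)
    show -((x.natAbs : ℕ) : ℤ) ≤ y (i.succAbove j) ∧ y (i.succAbove j) ≤ ((x.natAbs : ℕ) : ℤ)
    constructor <;> omega
  · intro y hy y2 hy2 h
    have hy := Finset.mem_coe.mp hy
    have hy2 := Finset.mem_coe.mp hy2
    rw [Finset.mem_filter] at hy hy2
    funext l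
    rcases Fin.eq_self_or_eq_succAbove i l with hl | ⟨j, hj⟩
    · rw [hl, hy.2.1, hy2.2.1]
    · rw [hj]; exact congrFun h j

lemma sum_inv_sq_face (k T : ℕ) (hk : 2 ≤ k) (hT : 1 ≤ T) (i : Fin (k + 1)) :
    ∑ y ∈ cube (k + 1) T,
        (if y i ≠ 0 ∧ ∀ j, (y j).natAbs ≤ (y i).natAbs then 1 / ((y i : ℤ) : ℝ) ^ 2 else 0)
      ≤ (3 : ℝ) ^ (k + 1) * (T : ℝ) ^ (k - 1) := by
  have hmaps : ∀ y ∈ cube (k + 1) T, y i ∈ box T := fun y hy => mem_cube.mp hy i
  rw [← Finset.sum_fiberwise_of_maps_to hmaps]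
  have hx : ∀ x ∈ box T, ∑ y ∈ (cube (k + 1) T).filter (fun y => y i = x),
      (if y i ≠ 0 ∧ ∀ j, (y j).natAbs ≤ (y i).natAbs then 1 / ((y i : ℤ) : ℝ) ^ 2 else 0)
      ≤ (3 : ℝ) ^ k * (T : ℝ) ^ (k - 2) := by
    intro x hxb
    by_cases hx0 : x = 0
    · have : ∀ y ∈ (cube (k + 1) T).filter (fun y => y i = x),
          (if y i ≠ 0 ∧ ∀ j, (y j).natAbs ≤ (y i).natAbs then 1 / ((y i : ℤ) : ℝ) ^ 2 else 0)
          = (0 : ℝ) := by
        intro y hy
        have := (Finset.mem_filter.mp hy).2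
        rw [this, hx0]
        simp
      rw [Finset.sum_congr rfl this, Finset.sum_const_zero]
      positivity
    · have hcongr : ∀ y ∈ (cube (k + 1) T).filter (fun y => y i = x),
          (if y i ≠ 0 ∧ ∀ j, (y j).natAbs ≤ (y i).natAbs then 1 / ((y i : ℤ) : ℝ) ^ 2 else 0)
          = (if (∀ j, (y j).natAbs ≤ x.natAbs) then 1 / ((x : ℤ) : ℝ) ^ 2 else 0) := by
        intro y hy
        have := (Finset.mem_filter.mp hy).2
        rw [this]
        simp [hx0]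
      rw [Finset.sum_congr rfl hcongr, ← Finset.sum_filter, Finset.sum_const, nsmul_eq_mul,
        Finset.filter_filter]
      have hcard := face_card k T i x
      have hxT : x.natAbs ≤ T := by
        have := mem_box.mp hxb
        omega
      have hx1 : 1 ≤ x.natAbs := Int.natAbs_pos.mpr hx0
      have hxabs : ((x : ℤ) : ℝ) ^ 2 = ((x.natAbs : ℕ) : ℝ) ^ 2 := by
        rw [Nat.cast_natAbs, Int.cast_abs, sq_abs]
      rw [hxabs]
      set n := x.natAbs with hn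
      have hnpos : (0 : ℝ) < (n : ℝ) := by exact_mod_cast hx1
      have h1 : (((cube (k + 1) T).filter
          (fun y => y i = x ∧ ∀ j, (y j).natAbs ≤ n)).card : ℝ) ≤ ((2 * n + 1 : ℕ) : ℝ) ^ k := by
        exact_mod_cast hcard
      have h2 : ((2 * n + 1 : ℕ) : ℝ) ^ k ≤ (3 * (n : ℝ)) ^ k := by
        apply pow_le_pow_left₀ (by positivity)
        have : (1 : ℝ) ≤ (n : ℝ) := by exact_mod_cast hx1
        push_cast
        linarith
      have h3 : (3 * (n : ℝ)) ^ k * (1 / (n : ℝ) ^ 2) = (3 : ℝ) ^ k * (n : ℝ) ^ (k - 2) := by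
        have e : (n : ℝ) ^ k = (n : ℝ) ^ (k - 2) * (n : ℝ) ^ 2 := by
          rw [← pow_add]
          congr 1
          omega
        rw [mul_pow, e]
        field_simp
      have h4 : (n : ℝ) ^ (k - 2) ≤ (T : ℝ) ^ (k - 2) := by
        apply pow_le_pow_left₀ (by positivity)
        exact_mod_cast hxT
      calc (((cube (k + 1) T).filter
          (fun y => y i = x ∧ ∀ j, (y j).natAbs ≤ n)).card : ℝ) * (1 / (n : ℝ) ^ 2)
          ≤ (3 * (n : ℝ)) ^ k * (1 / (n : ℝ) ^ 2) := by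
            apply mul_le_mul_of_nonneg_right (h1.trans h2)
            positivity
        _ = (3 : ℝ) ^ k * (n : ℝ) ^ (k - 2) := h3
        _ ≤ (3 : ℝ) ^ k * (T : ℝ) ^ (k - 2) := by
            apply mul_le_mul_of_nonneg_left h4
            positivity
  calc ∑ x ∈ box T, ∑ y ∈ (cube (k + 1) T).filter (fun y => y i = x),
        (if y i ≠ 0 ∧ ∀ j, (y j).natAbs ≤ (y i).natAbs then 1 / ((y i : ℤ) : ℝ) ^ 2 else 0)
      ≤ ∑ _x ∈ box T, (3 : ℝ) ^ k * (T : ℝ) ^ (k - 2) := Finset.sum_le_sum hx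
    _ = ((2 * T + 1 : ℕ) : ℝ) * ((3 : ℝ) ^ k * (T : ℝ) ^ (k - 2)) := by
        rw [Finset.sum_const, card_box, nsmul_eq_mul]
    _ ≤ (3 * (T : ℝ)) * ((3 : ℝ) ^ k * (T : ℝ) ^ (k - 2)) := by
        apply mul_le_mul_of_nonneg_right _ (by positivity)
        have : (1 : ℝ) ≤ (T : ℝ) := by exact_mod_cast hT
        push_cast
        linarith
    _ = (3 : ℝ) ^ (k + 1) * (T : ℝ) ^ (k - 1) := by
        have e : k - 1 = (k - 2) + 1 := by omega
        rw [e, pow_succ, pow_succ]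
        ring

lemma supn_pos_of_ne_zero {d : ℕ} (y : Fin d → ℤ) (hy : y ≠ 0) : 1 ≤ supn y := by
  have hex : ∃ i, y i ≠ 0 := by
    by_contra h
    simp only [not_exists, not_not] at h
    exact hy (funext h)
  obtain ⟨i, hi⟩ := hex
  have h1 := natAbs_le_supn y i
  have h2 : 0 < (y i).natAbs := Int.natAbs_pos.mpr hi
  omega

/-- The sum of `1 / ‖y‖_∞^2` over nonzero `y ∈ [-T, T]^(k+1)`. -/
lemma sum_inv_sq (k T : ℕ) (hk : 2 ≤ k) (hT : 1 ≤ T) :
    ∑ y ∈ cube (k + 1) T, (if y = 0 then (0 : ℝ) else 1 / ((supn y : ℕ) : ℝ) ^ 2)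
      ≤ ((k + 1 : ℕ) : ℝ) * ((3 : ℝ) ^ (k + 1) * (T : ℝ) ^ (k - 1)) := by
  have hpt : ∀ y ∈ cube (k + 1) T, (if y = 0 then (0 : ℝ) else 1 / ((supn y : ℕ) : ℝ) ^ 2)
      ≤ ∑ i : Fin (k + 1),
        (if y i ≠ 0 ∧ ∀ j, (y j).natAbs ≤ (y i).natAbs then 1 / ((y i : ℤ) : ℝ) ^ 2 else 0) := by
    intro y _
    have hnn : ∀ i ∈ (Finset.univ : Finset (Fin (k + 1))), (0 : ℝ) ≤
        (if y i ≠ 0 ∧ ∀ j, (y j).natAbs ≤ (y i).natAbs then 1 / ((y i : ℤ) : ℝ) ^ 2 else 0) := by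
      intro i _
      split_ifs
      · positivity
      · exact le_refl _
    by_cases hy : y = 0
    · rw [if_pos hy]
      exact Finset.sum_nonneg hnn
    · rw [if_neg hy]
      obtain ⟨i, _, hi⟩ := Finset.exists_mem_eq_sup Finset.univ Finset.univ_nonempty
        (fun i => (y i).natAbs)
      have hsup : supn y = (y i).natAbs := hi
      have hpos := supn_pos_of_ne_zero y hy
      have hyi : y i ≠ 0 := by
        intro h0
        rw [hsup, h0] at hpos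
        simp at hpos
      have hmax : ∀ j, (y j).natAbs ≤ (y i).natAbs := fun j => hsup ▸ natAbs_le_supn y j
      have hterm : (if y i ≠ 0 ∧ ∀ j, (y j).natAbs ≤ (y i).natAbs
          then 1 / ((y i : ℤ) : ℝ) ^ 2 else 0) = 1 / ((supn y : ℕ) : ℝ) ^ 2 := by
        rw [if_pos ⟨hyi, hmax⟩, hsup]
        have h2 : ((y i : ℤ) : ℝ) ^ 2 = (((y i).natAbs : ℕ) : ℝ) ^ 2 := by
          rw [Nat.cast_natAbs, Int.cast_abs, sq_abs]
        rw [h2]
      rw [← hterm]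
      exact Finset.single_le_sum hnn (Finset.mem_univ i)
  calc ∑ y ∈ cube (k + 1) T, (if y = 0 then (0 : ℝ) else 1 / ((supn y : ℕ) : ℝ) ^ 2)
      ≤ ∑ y ∈ cube (k + 1) T, ∑ i : Fin (k + 1),
        (if y i ≠ 0 ∧ ∀ j, (y j).natAbs ≤ (y i).natAbs then 1 / ((y i : ℤ) : ℝ) ^ 2 else 0) :=
        Finset.sum_le_sum hpt
    _ = ∑ i : Fin (k + 1), ∑ y ∈ cube (k + 1) T,
        (if y i ≠ 0 ∧ ∀ j, (y j).natAbs ≤ (y i).natAbs then 1 / ((y i : ℤ) : ℝ) ^ 2 else 0) :=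
        Finset.sum_comm
    _ ≤ ∑ _i : Fin (k + 1), (3 : ℝ) ^ (k + 1) * (T : ℝ) ^ (k - 1) :=
        Finset.sum_le_sum (fun i _ => sum_inv_sq_face k T hk hT i)
    _ = ((k + 1 : ℕ) : ℝ) * ((3 : ℝ) ^ (k + 1) * (T : ℝ) ^ (k - 1)) := by
        rw [Finset.sum_const, Finset.card_univ, Fintype.card_fin, nsmul_eq_mul]

end Vale.Agent.Lib.P054
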