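import Vale.Agent.Lib.P054.PrimSum

namespace Vale.Agent.Lib.P054

open Finset

open Classical in
/-- A primitive integer vector parallel to `W a`, or `0` if there is none. -/
noncomputable def Yf {d : ℕ} (W : (Fin d → ℤ) → (Fin d → ℝ)) (a : Fin d → ℤ) : Fin d → ℤ :=
  if h : ∃ y : Fin d → ℤ, IsPrimDir (W a) y then Classical.choose h else 0

lemma Yf_spec {d : ℕ} (W : (Fin d → ℤ) → (Fin d → ℝ)) (a : Fin d → ℤ)
    (h : ∃ y : Fin d → ℤ, IsPrimDir (W a) y) : IsPrimDir (W a) (Yf W a) := by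
  unfold Yf
  rw [dif_pos h]
  exact Classical.choose_spec h

/-- `1 / ‖y‖_∞^2` for nonzero `y`. -/
noncomputable def hfun {d : ℕ} (y : Fin d → ℤ) : ℝ :=
  if y = 0 then 0 else 1 / ((supn y : ℕ) : ℝ) ^ 2

lemma hfun_nonneg {d : ℕ} (y : Fin d → ℤ) : 0 ≤ hfun y := by
  unfold hfun
  split_ifs
  · exact le_refl _
  · positivity

lemma fiber_card_le_two {d : ℕ} (W : (Fin d → ℤ) → (Fin d → ℝ))
    (hW3 : ∀ (a a' : Fin d → ℤ) (c : ℝ), (∀ j, W a j = c * W a' j) →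
      ∀ j, (a j : ℝ) = c * (a' j : ℝ))
    (y : Fin d → ℤ) (S : Finset (Fin d → ℤ))
    (hS : ∀ a ∈ S, Finset.univ.gcd a = 1 ∧ IsPrimDir (W a) y) : S.card ≤ 2 := by
  rcases S.eq_empty_or_nonempty with hemp | ⟨a0, ha0⟩
  · simp [hemp]
  · have hsub : S ⊆ {a0, fun j => -a0 j} := by
      intro a ha
      obtain ⟨hg, _, c1, _, hw1⟩ := hS a ha
      obtain ⟨hg0, _, c0, hc0, hw0⟩ := hS a0 ha0
      have hpar : ∀ j, W a j = (c1 / c0) * W a0 j := by
        intro j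
        rw [hw1 j, hw0 j]
        field_simp
      have h3 := hW3 a a0 (c1 / c0) hpar
      rcases prim_parallel a0 a hg0 hg (c1 / c0) h3 with h | h
      · simp [h]
      · simp [h]
    exact (Finset.card_le_card hsub).trans Finset.card_le_two

lemma kappa_sq_sum (d T : ℕ) (hT : 1 ≤ T) (W : (Fin d → ℤ) → (Fin d → ℝ))
    (hW3 : ∀ (a a' : Fin d → ℤ) (c : ℝ), (∀ j, W a j = c * W a' j) →
      ∀ j, (a j : ℝ) = c * (a' j : ℝ)) :
    ∑ a ∈ primCube d T, kappa (W a) ^ 2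
      ≤ 2 * ∑ y ∈ cube d T, hfun y + ((2 * T + 1 : ℕ) : ℝ) ^ d / (T : ℝ) ^ 2 := by
  classical
  have hTpos : (0 : ℝ) < (T : ℝ) := by exact_mod_cast hT
  set PA := (primCube d T).filter
    (fun a => (∃ y : Fin d → ℤ, IsPrimDir (W a) y) ∧ supn (Yf W a) ≤ T) with hPA
  have hpt : ∀ a ∈ primCube d T, kappa (W a) ^ 2
      ≤ (if (∃ y : Fin d → ℤ, IsPrimDir (W a) y) ∧ supn (Yf W a) ≤ T then hfun (Yf W a) else 0)
        + 1 / (T : ℝ) ^ 2 := by
    intro a _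
    by_cases h : ∃ y : Fin d → ℤ, IsPrimDir (W a) y
    · have hy := Yf_spec W a h
      have hρ := prim_supn_pos (Yf W a) hy.1
      have hρ' : (1 : ℝ) ≤ ((supn (Yf W a) : ℕ) : ℝ) := by exact_mod_cast hρ
      have hne : Yf W a ≠ 0 := by
        intro h0
        rw [h0] at hρ
        simp [supn] at hρ
      rw [kappa_eq (W a) (Yf W a) hy]
      by_cases hle : supn (Yf W a) ≤ T
      · rw [if_pos ⟨h, hle⟩]
        have : hfun (Yf W a) = (1 / ((supn (Yf W a) : ℕ) : ℝ)) ^ 2 := by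
          unfold hfun
          rw [if_neg hne]
          ring
        rw [this]
        have : (0 : ℝ) ≤ 1 / (T : ℝ) ^ 2 := by positivity
        linarith
      · have hnot : ¬ ((∃ y : Fin d → ℤ, IsPrimDir (W a) y) ∧ supn (Yf W a) ≤ T) :=
          fun hh => hle hh.2
        rw [if_neg hnot, zero_add]
        have hgt : (T : ℝ) ≤ ((supn (Yf W a) : ℕ) : ℝ) := by
          have : T ≤ supn (Yf W a) := by omega
          exact_mod_cast this
        have h1 : 1 / ((supn (Yf W a) : ℕ) : ℝ) ≤ 1 / (T : ℝ) :=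
          one_div_le_one_div_of_le hTpos hgt
        have h2 : (0 : ℝ) ≤ 1 / ((supn (Yf W a) : ℕ) : ℝ) := by positivity
        calc (1 / ((supn (Yf W a) : ℕ) : ℝ)) ^ 2 ≤ (1 / (T : ℝ)) ^ 2 :=
              pow_le_pow_left₀ h2 h1 2
          _ = 1 / (T : ℝ) ^ 2 := by ring
    · have hnot : ¬ ((∃ y : Fin d → ℤ, IsPrimDir (W a) y) ∧ supn (Yf W a) ≤ T) :=
        fun hh => h hh.1
      rw [kappa_eq_zero (W a) h, if_neg hnot]
      simp
  have hfib : ∀ y ∈ PA.image (Yf W), ((PA.filter (fun a => Yf W a = y)).card : ℝ) ≤ 2 := by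
    intro y _
    have := fiber_card_le_two W hW3 y (PA.filter (fun a => Yf W a = y)) (by
      intro a ha
      rw [Finset.mem_filter, hPA, Finset.mem_filter, primCube, Finset.mem_filter] at ha
      refine ⟨ha.1.1.2, ?_⟩
      rw [← ha.2]
      exact Yf_spec W a ha.1.2.1)
    exact_mod_cast this
  have himg : PA.image (Yf W) ⊆ cube d T := by
    intro y hy
    rw [Finset.mem_image] at hy
    obtain ⟨a, ha, rfl⟩ := hy
    rw [hPA, Finset.mem_filter] at ha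
    exact mem_cube_of_supn_le _ ha.2.2
  have hsum1 : ∑ a ∈ PA, hfun (Yf W a) ≤ 2 * ∑ y ∈ cube d T, hfun y := by
    rw [Finset.sum_comp hfun (Yf W)]
    calc ∑ y ∈ PA.image (Yf W), (PA.filter (fun a => Yf W a = y)).card • hfun y
        ≤ ∑ y ∈ PA.image (Yf W), 2 * hfun y := by
          apply Finset.sum_le_sum
          intro y hy
          rw [nsmul_eq_mul]
          exact mul_le_mul_of_nonneg_right (hfib y hy) (hfun_nonneg y)
      _ ≤ ∑ y ∈ cube d T, 2 * hfun y :=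
          Finset.sum_le_sum_of_subset_of_nonneg himg
            (fun y _ _ => mul_nonneg (by norm_num) (hfun_nonneg y))
      _ = 2 * ∑ y ∈ cube d T, hfun y := by rw [Finset.mul_sum]
  have hcardP : ((primCube d T).card : ℝ) ≤ ((2 * T + 1 : ℕ) : ℝ) ^ d := by
    have : (primCube d T).card ≤ (2 * T + 1) ^ d := by
      rw [← card_cube]
      exact Finset.card_filter_le _ _
    exact_mod_cast this
  calc ∑ a ∈ primCube d T, kappa (W a) ^ 2
      ≤ ∑ a ∈ primCube d T,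
          ((if (∃ y : Fin d → ℤ, IsPrimDir (W a) y) ∧ supn (Yf W a) ≤ T
            then hfun (Yf W a) else 0) + 1 / (T : ℝ) ^ 2) := Finset.sum_le_sum hpt
    _ = ∑ a ∈ PA, hfun (Yf W a) + ((primCube d T).card : ℝ) * (1 / (T : ℝ) ^ 2) := by
        rw [Finset.sum_add_distrib, ← Finset.sum_filter, Finset.sum_const, nsmul_eq_mul]
    _ ≤ 2 * ∑ y ∈ cube d T, hfun y + ((2 * T + 1 : ℕ) : ℝ) ^ d * (1 / (T : ℝ) ^ 2) := by
        apply add_le_add hsum1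
        apply mul_le_mul_of_nonneg_right hcardP
        positivity
    _ = 2 * ∑ y ∈ cube d T, hfun y + ((2 * T + 1 : ℕ) : ℝ) ^ d / (T : ℝ) ^ 2 := by ring

/-- The sum of `kappa (W a)` over nonzero `a ∈ [-T, T]^(k+1)` is `O(T^k)`. -/
lemma kappa_sum (k T : ℕ) (hk : 2 ≤ k) (hT : 1 ≤ T)
    (W : (Fin (k + 1) → ℤ) → (Fin (k + 1) → ℝ))
    (hW2 : ∀ (g : ℤ) (a : Fin (k + 1) → ℤ), W (fun j => g * a j) = fun j => (g : ℝ) * W a j)
    (hW3 : ∀ (a a' : Fin (k + 1) → ℤ) (c : ℝ), (∀ j, W a j = c * W a' j) →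
      ∀ j, (a j : ℝ) = c * (a' j : ℝ)) :
    ∑ a ∈ cube (k + 1) T, (if a = 0 then (0 : ℝ) else kappa (W a))
      ≤ 2 * ((k + 1 : ℕ) : ℝ) * (3 : ℝ) ^ (k + 1) * (T : ℝ) ^ k := by
  have hTpos : (0 : ℝ) < (T : ℝ) := by exact_mod_cast hT
  have hT1 : (1 : ℝ) ≤ (T : ℝ) := by exact_mod_cast hT
  have hS0 : ∑ y ∈ cube (k + 1) T, hfun y
      ≤ ((k + 1 : ℕ) : ℝ) * ((3 : ℝ) ^ (k + 1) * (T : ℝ) ^ (k - 1)) := sum_inv_sq k T hk hT
  have hg := kappa_group (k + 1) T W hW2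
  have hamgm : ∀ a ∈ primCube (k + 1) T, ((T : ℝ) / (supn a : ℝ)) * kappa (W a)
      ≤ ((T : ℝ) / 2) * (hfun a + kappa (W a) ^ 2) := by
    intro a ha
    rw [primCube, Finset.mem_filter] at ha
    have hρ := prim_supn_pos a ha.2
    have hρ' : (0 : ℝ) < ((supn a : ℕ) : ℝ) := by exact_mod_cast hρ
    have hne : a ≠ 0 := by
      intro h0
      rw [h0] at hρ
      simp [supn] at hρ
    have hh : hfun a = (1 / ((supn a : ℕ) : ℝ)) ^ 2 := by
      unfold hfun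
      rw [if_neg hne]
      ring
    rw [hh]
    have key : (1 / ((supn a : ℕ) : ℝ)) * kappa (W a)
        ≤ ((1 / ((supn a : ℕ) : ℝ)) ^ 2 + kappa (W a) ^ 2) / 2 := by
      nlinarith [sq_nonneg (1 / ((supn a : ℕ) : ℝ) - kappa (W a))]
    calc ((T : ℝ) / (supn a : ℝ)) * kappa (W a)
        = (T : ℝ) * ((1 / ((supn a : ℕ) : ℝ)) * kappa (W a)) := by ring
      _ ≤ (T : ℝ) * (((1 / ((supn a : ℕ) : ℝ)) ^ 2 + kappa (W a) ^ 2) / 2) :=
          mul_le_mul_of_nonneg_left key hTpos.le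
      _ = ((T : ℝ) / 2) * ((1 / ((supn a : ℕ) : ℝ)) ^ 2 + kappa (W a) ^ 2) := by ring
  have hsub : ∑ a ∈ primCube (k + 1) T, hfun a ≤ ∑ y ∈ cube (k + 1) T, hfun y :=
    Finset.sum_le_sum_of_subset_of_nonneg (Finset.filter_subset _ _)
      (fun y _ _ => hfun_nonneg y)
  have hsq := kappa_sq_sum (k + 1) T hT W hW3
  have hpow : ((2 * T + 1 : ℕ) : ℝ) ^ (k + 1) / (T : ℝ) ^ 2
      ≤ (3 : ℝ) ^ (k + 1) * (T : ℝ) ^ (k - 1) := by
    rw [div_le_iff₀ (by positivity)]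
    have h1 : ((2 * T + 1 : ℕ) : ℝ) ≤ 3 * (T : ℝ) := by
      push_cast
      linarith
    have h2 : ((2 * T + 1 : ℕ) : ℝ) ^ (k + 1) ≤ (3 * (T : ℝ)) ^ (k + 1) :=
      pow_le_pow_left₀ (by positivity) h1 _
    have e : (3 * (T : ℝ)) ^ (k + 1) = (3 : ℝ) ^ (k + 1) * (T : ℝ) ^ (k - 1) * (T : ℝ) ^ 2 := by
      rw [mul_pow, mul_assoc, ← pow_add]
      congr 2
      omega
    rw [← e]
    exact h2
  have hTk : (T : ℝ) * (T : ℝ) ^ (k - 1) = (T : ℝ) ^ k := by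
    rw [← pow_succ']
    congr 1
    omega
  set S0 := ∑ y ∈ cube (k + 1) T, hfun y with hS0def
  set Z := (3 : ℝ) ^ (k + 1) * (T : ℝ) ^ (k - 1) with hZ
  have hZnn : 0 ≤ Z := by positivity
  calc ∑ a ∈ cube (k + 1) T, (if a = 0 then (0 : ℝ) else kappa (W a))
      ≤ ∑ a ∈ primCube (k + 1) T, ((T : ℝ) / (supn a : ℝ)) * kappa (W a) := hg
    _ ≤ ∑ a ∈ primCube (k + 1) T, ((T : ℝ) / 2) * (hfun a + kappa (W a) ^ 2) :=
        Finset.sum_le_sum hamgm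
    _ = ((T : ℝ) / 2) * (∑ a ∈ primCube (k + 1) T, hfun a
          + ∑ a ∈ primCube (k + 1) T, kappa (W a) ^ 2) := by
        rw [← Finset.mul_sum, Finset.sum_add_distrib]
    _ ≤ ((T : ℝ) / 2) * (S0 + (2 * S0 + Z)) := by
        apply mul_le_mul_of_nonneg_left _ (by positivity)
        exact add_le_add hsub (hsq.trans (add_le_add (le_refl _) hpow))
    _ ≤ ((T : ℝ) / 2) * (3 * (((k + 1 : ℕ) : ℝ) * Z) + Z) := by
        apply mul_le_mul_of_nonneg_left _ (by positivity)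
        linarith
    _ = ((3 * ((k + 1 : ℕ) : ℝ) + 1) / 2) * (3 : ℝ) ^ (k + 1) * ((T : ℝ) * (T : ℝ) ^ (k - 1)) := by
        rw [hZ]
        ring
    _ = ((3 * ((k + 1 : ℕ) : ℝ) + 1) / 2) * (3 : ℝ) ^ (k + 1) * (T : ℝ) ^ k := by rw [hTk]
    _ ≤ 2 * ((k + 1 : ℕ) : ℝ) * (3 : ℝ) ^ (k + 1) * (T : ℝ) ^ k := by
        have hk1 : (1 : ℝ) ≤ ((k + 1 : ℕ) : ℝ) := by
          push_cast
          have : (0 : ℝ) ≤ (k : ℝ) := by positivity
          linarith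
        have h3 : (3 * ((k + 1 : ℕ) : ℝ) + 1) / 2 ≤ 2 * ((k + 1 : ℕ) : ℝ) := by linarith
        have hpos : (0 : ℝ) ≤ (3 : ℝ) ^ (k + 1) * (T : ℝ) ^ k := by positivity
        nlinarith

end Vale.Agent.Lib.P054
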