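import Vale.Agent.Lib.P054.KappaSum

namespace Vale.Agent.Lib.P054

open Finset

/-- Pairs `(a, b)` in `[-T, T]^d × [-T, T]^d` with `W a · b = 0`. -/
noncomputable def Sset (d T : ℕ) (W : (Fin d → ℤ) → (Fin d → ℝ)) :
    Finset ((Fin d → ℤ) × (Fin d → ℤ)) :=
  (cube d T ×ˢ cube d T).filter (fun ab => ∑ j, W ab.1 j * (ab.2 j : ℝ) = 0)

lemma Sset_card_eq (d T : ℕ) (W : (Fin d → ℤ) → (Fin d → ℝ)) :
    (Sset d T W).card = ∑ a ∈ cube d T, Lreal d T (W a) := by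
  unfold Sset Lreal
  rw [Finset.card_filter, Finset.sum_product]
  apply Finset.sum_congr rfl
  intro a _
  rw [Finset.card_filter]

lemma Sset_card_le (m T : ℕ) (hT : 1 ≤ T)
    (W : (Fin (m + 2) → ℤ) → (Fin (m + 2) → ℝ)) (hm : 1 ≤ m)
    (hW2 : ∀ (g : ℤ) (a : Fin (m + 2) → ℤ), W (fun j => g * a j) = fun j => (g : ℝ) * W a j)
    (hW3 : ∀ (a a' : Fin (m + 2) → ℤ) (c : ℝ), (∀ j, W a j = c * W a' j) →
      ∀ j, (a j : ℝ) = c * (a' j : ℝ)) :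
    ((Sset (m + 2) T W).card : ℝ)
      ≤ (4 * ((m + 2 : ℕ) : ℝ) + 2) * (9 : ℝ) ^ (m + 1) * (T : ℝ) ^ (2 * m + 2) := by
  have hT1 : (1 : ℝ) ≤ (T : ℝ) := by exact_mod_cast hT
  have hTpos : (0 : ℝ) < (T : ℝ) := by linarith
  rw [Sset_card_eq, Nat.cast_sum]
  have hne : ∀ a : Fin (m + 2) → ℤ, a ≠ 0 → W a ≠ 0 := by
    intro a ha h0
    apply ha
    funext j
    have h := hW3 a 0 0 (by intro j; rw [h0]; simp) j
    have h' : ((a j : ℤ) : ℝ) = 0 := by simpa using h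
    exact_mod_cast h'
  set A : ℝ := ((2 * T + 1 : ℕ) : ℝ) with hA
  have hA0 : (0 : ℝ) ≤ A := by positivity
  have hA3 : A ≤ 3 * (T : ℝ) := by
    rw [hA]
    push_cast
    linarith
  have hpt : ∀ a ∈ cube (m + 2) T, (Lreal (m + 2) T (W a) : ℝ)
      ≤ (if a = 0 then A ^ (m + 2) else 0)
        + A ^ m * (2 * (T : ℝ) * (if a = 0 then (0 : ℝ) else kappa (W a)) + 1) := by
    intro a _
    by_cases ha : a = 0
    · rw [if_pos ha, if_pos ha]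
      have h1 : (Lreal (m + 2) T (W a) : ℝ) ≤ A ^ (m + 2) := by
        have : Lreal (m + 2) T (W a) ≤ (2 * T + 1) ^ (m + 2) := by
          rw [← card_cube]
          exact Finset.card_filter_le _ _
        rw [hA]
        exact_mod_cast this
      have h2 : (0 : ℝ) ≤ A ^ m * (2 * (T : ℝ) * 0 + 1) := by positivity
      linarith
    · rw [if_neg ha, if_neg ha, zero_add]
      exact Lreal_le m T (W a) (hne a ha)
  have hK := kappa_sum (m + 1) T (by omega) hT W hW2 hW3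
  set K : ℝ := ∑ a ∈ cube (m + 1 + 1) T, (if a = 0 then (0 : ℝ) else kappa (W a)) with hKdef
  have hcard : ((cube (m + 2) T).card : ℝ) = A ^ (m + 2) := by
    rw [card_cube, hA]
    push_cast
    ring
  have hsum : ∑ a ∈ cube (m + 2) T, (Lreal (m + 2) T (W a) : ℝ)
      ≤ A ^ (m + 2) + A ^ m * (2 * (T : ℝ) * K + A ^ (m + 2)) := by
    calc ∑ a ∈ cube (m + 2) T, (Lreal (m + 2) T (W a) : ℝ)
        ≤ ∑ a ∈ cube (m + 2) T, ((if a = 0 then A ^ (m + 2) else 0)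
          + A ^ m * (2 * (T : ℝ) * (if a = 0 then (0 : ℝ) else kappa (W a)) + 1)) :=
          Finset.sum_le_sum hpt
      _ = (if (0 : Fin (m + 2) → ℤ) ∈ cube (m + 2) T then A ^ (m + 2) else 0)
          + A ^ m * (2 * (T : ℝ) * K + A ^ (m + 2)) := by
          rw [Finset.sum_add_distrib, Finset.sum_ite_eq', ← Finset.mul_sum,
            Finset.sum_add_distrib, ← Finset.mul_sum, Finset.sum_const, nsmul_eq_mul, hcard,
            mul_one]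
      _ ≤ A ^ (m + 2) + A ^ m * (2 * (T : ℝ) * K + A ^ (m + 2)) := by
          apply add_le_add _ (le_refl _)
          split_ifs
          · exact le_refl _
          · positivity
  have hAm2 : A ^ (m + 2) ≤ (3 : ℝ) ^ (m + 2) * (T : ℝ) ^ (m + 2) := by
    rw [← mul_pow]
    exact pow_le_pow_left₀ hA0 hA3 _
  have hAm : A ^ m ≤ (3 : ℝ) ^ m * (T : ℝ) ^ m := by
    rw [← mul_pow]
    exact pow_le_pow_left₀ hA0 hA3 _
  have hK' : 2 * (T : ℝ) * K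
      ≤ 4 * ((m + 2 : ℕ) : ℝ) * ((3 : ℝ) ^ (m + 2) * (T : ℝ) ^ (m + 2)) := by
    have e : (T : ℝ) ^ (m + 2) = (T : ℝ) * (T : ℝ) ^ (m + 1) := by ring
    rw [e]
    have h := mul_le_mul_of_nonneg_left hK (by positivity : (0 : ℝ) ≤ 2 * (T : ℝ))
    calc 2 * (T : ℝ) * K
        ≤ 2 * (T : ℝ) * (2 * ((m + 1 + 1 : ℕ) : ℝ) * (3 : ℝ) ^ (m + 1 + 1) * (T : ℝ) ^ (m + 1)) := h
      _ = 4 * ((m + 2 : ℕ) : ℝ) * ((3 : ℝ) ^ (m + 2) * ((T : ℝ) * (T : ℝ) ^ (m + 1))) := by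
          ring
  set Z : ℝ := (3 : ℝ) ^ (m + 2) * (T : ℝ) ^ (m + 2) with hZ
  have hZ0 : 0 ≤ Z := by positivity
  have hin : 2 * (T : ℝ) * K + A ^ (m + 2) ≤ (4 * ((m + 2 : ℕ) : ℝ) + 1) * Z := by
    linarith
  have hin0 : (0 : ℝ) ≤ (4 * ((m + 2 : ℕ) : ℝ) + 1) * Z := by positivity
  have hprod : A ^ m * (2 * (T : ℝ) * K + A ^ (m + 2))
      ≤ ((3 : ℝ) ^ m * (T : ℝ) ^ m) * ((4 * ((m + 2 : ℕ) : ℝ) + 1) * Z) := by
    calc A ^ m * (2 * (T : ℝ) * K + A ^ (m + 2))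
        ≤ A ^ m * ((4 * ((m + 2 : ℕ) : ℝ) + 1) * Z) :=
          mul_le_mul_of_nonneg_left hin (by positivity)
      _ ≤ ((3 : ℝ) ^ m * (T : ℝ) ^ m) * ((4 * ((m + 2 : ℕ) : ℝ) + 1) * Z) :=
          mul_le_mul_of_nonneg_right hAm hin0
  have hZle : Z ≤ (9 : ℝ) ^ (m + 1) * (T : ℝ) ^ (2 * m + 2) := by
    rw [hZ]
    have h9 : (9 : ℝ) ^ (m + 1) = (3 : ℝ) ^ (m + 2) * (3 : ℝ) ^ m := by
      rw [show (9 : ℝ) = 3 ^ 2 by norm_num, ← pow_mul, ← pow_add]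
      congr 1
      omega
    have hTT : (T : ℝ) ^ (2 * m + 2) = (T : ℝ) ^ (m + 2) * (T : ℝ) ^ m := by
      rw [← pow_add]
      congr 1
      omega
    rw [h9, hTT]
    have h3m : (1 : ℝ) ≤ (3 : ℝ) ^ m := one_le_pow₀ (by norm_num)
    have hTm : (1 : ℝ) ≤ (T : ℝ) ^ m := one_le_pow₀ hT1
    have h1 : (1 : ℝ) ≤ (3 : ℝ) ^ m * (T : ℝ) ^ m := by nlinarith
    have hpos : (0 : ℝ) ≤ (3 : ℝ) ^ (m + 2) * (T : ℝ) ^ (m + 2) := by positivity
    calc (3 : ℝ) ^ (m + 2) * (T : ℝ) ^ (m + 2)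
        = (3 : ℝ) ^ (m + 2) * (T : ℝ) ^ (m + 2) * 1 := by ring
      _ ≤ (3 : ℝ) ^ (m + 2) * (T : ℝ) ^ (m + 2) * ((3 : ℝ) ^ m * (T : ℝ) ^ m) :=
          mul_le_mul_of_nonneg_left h1 hpos
      _ = (3 : ℝ) ^ (m + 2) * (3 : ℝ) ^ m * ((T : ℝ) ^ (m + 2) * (T : ℝ) ^ m) := by ring
  have heq : ((3 : ℝ) ^ m * (T : ℝ) ^ m) * ((4 * ((m + 2 : ℕ) : ℝ) + 1) * Z)
      = (4 * ((m + 2 : ℕ) : ℝ) + 1) * ((9 : ℝ) ^ (m + 1) * (T : ℝ) ^ (2 * m + 2)) := by
    rw [hZ]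
    have h9 : (9 : ℝ) ^ (m + 1) = (3 : ℝ) ^ (m + 2) * (3 : ℝ) ^ m := by
      rw [show (9 : ℝ) = 3 ^ 2 by norm_num, ← pow_mul, ← pow_add]
      congr 1
      omega
    have hTT : (T : ℝ) ^ (2 * m + 2) = (T : ℝ) ^ (m + 2) * (T : ℝ) ^ m := by
      rw [← pow_add]
      congr 1
      omega
    rw [h9, hTT]
    ring
  calc ∑ a ∈ cube (m + 2) T, (Lreal (m + 2) T (W a) : ℝ)
      ≤ A ^ (m + 2) + A ^ m * (2 * (T : ℝ) * K + A ^ (m + 2)) := hsum
    _ ≤ Z + (4 * ((m + 2 : ℕ) : ℝ) + 1) * ((9 : ℝ) ^ (m + 1) * (T : ℝ) ^ (2 * m + 2)) := by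
        rw [← heq]
        exact add_le_add hAm2 hprod
    _ ≤ (9 : ℝ) ^ (m + 1) * (T : ℝ) ^ (2 * m + 2)
          + (4 * ((m + 2 : ℕ) : ℝ) + 1) * ((9 : ℝ) ^ (m + 1) * (T : ℝ) ^ (2 * m + 2)) :=
        add_le_add hZle (le_refl _)
    _ = (4 * ((m + 2 : ℕ) : ℝ) + 2) * (9 : ℝ) ^ (m + 1) * (T : ℝ) ^ (2 * m + 2) := by ring

/-- `W a = G a` for a real matrix `G` and an integer vector `a`. -/
noncomputable def Wof {d : ℕ} (G : Fin d → Fin d → ℝ) (a : Fin d → ℤ) : Fin d → ℝ :=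
  fun j => ∑ i, G i j * (a i : ℝ)

/-- The quadratic form `a ↦ aᵀ G a` on integer vectors. -/
noncomputable def Qof {d : ℕ} (G : Fin d → Fin d → ℝ) (a : Fin d → ℤ) : ℝ :=
  ∑ j, Wof G a j * (a j : ℝ)

lemma Wof_smul {d : ℕ} (G : Fin d → Fin d → ℝ) (g : ℤ) (a : Fin d → ℤ) :
    Wof G (fun j => g * a j) = fun j => (g : ℝ) * Wof G a j := by
  funext j
  simp only [Wof]
  rw [Finset.mul_sum]
  apply Finset.sum_congr rfl
  intro i _
  push_cast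
  ring

lemma Wof_inj {d : ℕ} (G : Fin d → Fin d → ℝ)
    (hG : ∀ x : Fin d → ℝ, (∀ j, ∑ i, G i j * x i = 0) → x = 0)
    (a a' : Fin d → ℤ) (c : ℝ) (h : ∀ j, Wof G a j = c * Wof G a' j) :
    ∀ j, (a j : ℝ) = c * (a' j : ℝ) := by
  have hx := hG (fun i => (a i : ℝ) - c * (a' i : ℝ)) (by
    intro j
    have hj := h j
    simp only [Wof] at hj
    have e : ∑ i, G i j * ((a i : ℝ) - c * (a' i : ℝ))
        = ∑ i, G i j * (a i : ℝ) - c * ∑ i, G i j * (a' i : ℝ) := by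
      rw [Finset.mul_sum, ← Finset.sum_sub_distrib]
      apply Finset.sum_congr rfl
      intro i _
      ring
    rw [e, hj]
    ring)
  intro j
  have hj := congrFun hx j
  simp only [Pi.zero_apply] at hj
  linarith

lemma Qof_sub {d : ℕ} (G : Fin d → Fin d → ℝ) (hS : ∀ i j, G i j = G j i) (u v : Fin d → ℤ) :
    ∑ j, Wof G (u - v) j * (((u + v) j : ℤ) : ℝ) = Qof G u - Qof G v := by
  simp only [Qof, Wof, Pi.sub_apply, Pi.add_apply]
  push_cast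
  have hcross : ∑ j, (∑ i, G i j * (u i : ℝ)) * (v j : ℝ)
      = ∑ j, (∑ i, G i j * (v i : ℝ)) * (u j : ℝ) := by
    simp only [Finset.sum_mul]
    rw [Finset.sum_comm]
    apply Finset.sum_congr rfl
    intro i _
    apply Finset.sum_congr rfl
    intro j _
    rw [hS i j]
    ring
  have e1 : ∀ j, (∑ i, G i j * ((u i : ℝ) - (v i : ℝ))) * ((u j : ℝ) + (v j : ℝ))
      = (∑ i, G i j * (u i : ℝ)) * (u j : ℝ) + (∑ i, G i j * (u i : ℝ)) * (v j : ℝ)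
        - (∑ i, G i j * (v i : ℝ)) * (u j : ℝ) - (∑ i, G i j * (v i : ℝ)) * (v j : ℝ) := by
    intro j
    have e : ∑ i, G i j * ((u i : ℝ) - (v i : ℝ))
        = ∑ i, G i j * (u i : ℝ) - ∑ i, G i j * (v i : ℝ) := by
      rw [← Finset.sum_sub_distrib]
      apply Finset.sum_congr rfl
      intro i _
      ring
    rw [e]
    ring
  rw [Finset.sum_congr rfl (fun j _ => e1 j)]
  simp only [Finset.sum_add_distrib, Finset.sum_sub_distrib]
  rw [hcross]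
  ring

/-- Pairs of integer vectors in `[-t, t]^d` with the same value of the quadratic form. -/
noncomputable def EQset (d t : ℕ) (G : Fin d → Fin d → ℝ) :
    Finset ((Fin d → ℤ) × (Fin d → ℤ)) :=
  (cube d t ×ˢ cube d t).filter (fun uv => Qof G uv.1 = Qof G uv.2)

lemma EQset_card_le_Sset (d t : ℕ) (G : Fin d → Fin d → ℝ) (hS : ∀ i j, G i j = G j i) :
    (EQset d t G).card ≤ (Sset d (2 * t) (Wof G)).card := by
  apply Finset.card_le_card_of_injOn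
    (fun uv : (Fin d → ℤ) × (Fin d → ℤ) => (uv.1 - uv.2, uv.1 + uv.2))
  · intro uv huv
    have huv := Finset.mem_coe.mp huv
    simp only [EQset, Finset.mem_filter, Finset.mem_product, mem_cube, mem_box] at huv
    apply Finset.mem_coe.mpr
    simp only [Sset, Finset.mem_filter, Finset.mem_product, mem_cube, mem_box]
    refine ⟨⟨fun i => ?_, fun i => ?_⟩, ?_⟩
    · have h1 := huv.1.1 i
      have h2 := huv.1.2 i
      simp only [Pi.sub_apply]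
      push_cast
      constructor <;> linarith [h1.1, h1.2, h2.1, h2.2]
    · have h1 := huv.1.1 i
      have h2 := huv.1.2 i
      simp only [Pi.add_apply]
      push_cast
      constructor <;> linarith [h1.1, h1.2, h2.1, h2.2]
    · rw [Qof_sub G hS, huv.2]
      ring
  · intro uv _ uv' _ h
    simp only [Prod.mk.injEq] at h
    obtain ⟨h1, h2⟩ := h
    have e1 : uv.1 = uv'.1 := by
      funext i
      have a1 := congrFun h1 i
      have a2 := congrFun h2 i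
      simp only [Pi.sub_apply, Pi.add_apply] at a1 a2
      linarith
    have e2 : uv.2 = uv'.2 := by
      funext i
      have a1 := congrFun h1 i
      have a2 := congrFun h2 i
      simp only [Pi.sub_apply, Pi.add_apply] at a1 a2
      linarith
    exact Prod.ext e1 e2

/-- The energy bound for an arbitrary nondegenerate symmetric real form in `d ≥ 3` variables. -/
lemma EQset_card_le (d t : ℕ) (hd : 3 ≤ d) (ht : 1 ≤ t) (G : Fin d → Fin d → ℝ)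
    (hS : ∀ i j, G i j = G j i)
    (hG : ∀ x : Fin d → ℝ, (∀ j, ∑ i, G i j * x i = 0) → x = 0) :
    ((EQset d t G).card : ℝ)
      ≤ (4 * (d : ℝ) + 2) * (36 : ℝ) ^ (d - 1) * (t : ℝ) ^ (2 * d - 2) := by
  obtain ⟨m, rfl⟩ : ∃ m, d = m + 2 := ⟨d - 2, by omega⟩
  have h1 : ((EQset (m + 2) t G).card : ℝ) ≤ ((Sset (m + 2) (2 * t) (Wof G)).card : ℝ) := by
    exact_mod_cast EQset_card_le_Sset (m + 2) t G hS
  have h2 := Sset_card_le m (2 * t) (by omega) (Wof G) (by omega) (Wof_smul G) (Wof_inj G hG)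
  have e1 : m + 2 - 1 = m + 1 := by omega
  have e2 : 2 * (m + 2) - 2 = 2 * m + 2 := by omega
  rw [e1, e2]
  have e3 : (36 : ℝ) ^ (m + 1) * (t : ℝ) ^ (2 * m + 2)
      = (9 : ℝ) ^ (m + 1) * (((2 * t : ℕ) : ℝ)) ^ (2 * m + 2) := by
    push_cast
    rw [mul_pow, show 2 * m + 2 = 2 * (m + 1) by ring, pow_mul, pow_mul,
      show (36 : ℝ) = 9 * 2 ^ 2 by norm_num, mul_pow]
    ring
  calc ((EQset (m + 2) t G).card : ℝ) ≤ ((Sset (m + 2) (2 * t) (Wof G)).card : ℝ) := h1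
    _ ≤ (4 * ((m + 2 : ℕ) : ℝ) + 2) * (9 : ℝ) ^ (m + 1) * (((2 * t : ℕ) : ℝ)) ^ (2 * m + 2) := h2
    _ = (4 * ((m + 2 : ℕ) : ℝ) + 2) * ((36 : ℝ) ^ (m + 1) * (t : ℝ) ^ (2 * m + 2)) := by
        rw [e3]
        ring
    _ = (4 * ((m + 2 : ℕ) : ℝ) + 2) * (36 : ℝ) ^ (m + 1) * (t : ℝ) ^ (2 * m + 2) := by ring

end Vale.Agent.Lib.P054
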