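import Vale.Agent.Lib.P054.LatEnergy

namespace Vale.Agent.Lib.P054

open Finset

variable {E : Type*} [NormedAddCommGroup E] [InnerProductSpace ℝ E]

/-- The Gram matrix of a family of vectors. -/
noncomputable def gram {d : ℕ} (v : Fin d → E) : Fin d → Fin d → ℝ :=
  fun i j => inner ℝ (v i) (v j)

lemma gram_symm {d : ℕ} (v : Fin d → E) : ∀ i j, gram v i j = gram v j i :=
  fun _ _ => real_inner_comm _ _

lemma gram_inj {d : ℕ} (v : Fin d → E) (hv : LinearIndependent ℝ v) :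
    ∀ x : Fin d → ℝ, (∀ j, ∑ i, gram v i j * x i = 0) → x = 0 := by
  intro x hx
  have h0 : ∑ i, x i • v i = 0 := by
    have h : inner ℝ (∑ i, x i • v i) (∑ j, x j • v j) = (0 : ℝ) := by
      rw [inner_sum]
      apply Finset.sum_eq_zero
      intro j _
      rw [inner_smul_right, sum_inner]
      have e : ∑ i, inner ℝ (x i • v i) (v j) = ∑ i, gram v i j * x i := by
        apply Finset.sum_congr rfl
        intro i _
        rw [real_inner_smul_left]
        simp only [gram]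
        ring
      rw [e, hx j, mul_zero]
    exact inner_self_eq_zero.mp h
  funext i
  exact Fintype.linearIndependent_iff.mp hv x h0 i

lemma Qof_gram {d : ℕ} (v : Fin d → E) (a : Fin d → ℤ) :
    Qof (gram v) a = ‖∑ i, (a i : ℝ) • v i‖ ^ 2 := by
  rw [← real_inner_self_eq_norm_sq, inner_sum]
  simp only [Qof, Wof]
  apply Finset.sum_congr rfl
  intro j _
  rw [real_inner_smul_right, sum_inner, mul_comm]
  congr 1
  apply Finset.sum_congr rfl
  intro i _
  rw [real_inner_smul_left]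
  simp only [gram]
  ring

/-- Pinned distinct distances of a subset of a `t × ... × t` box of an arbitrary lattice. -/
lemma lattice_pinned [DecidableEq E] (d t : ℕ) (hd : 3 ≤ d) (v : Fin d → E)
    (hv : LinearIndependent ℝ v)
    (x₀ : E) (P : Finset E)
    (hP : ∀ p ∈ P, ∃ k : Fin d → ℤ, (∀ i, 0 ≤ k i ∧ k i < t) ∧ p = x₀ + ∑ i, (k i : ℝ) • v i)
    (p0 : E) (hp0 : p0 ∈ P) :
    ((P.card : ℝ) - 1) ^ 2
      ≤ (4 * (d : ℝ) + 2) * (36 : ℝ) ^ (d - 1) * (t : ℝ) ^ (2 * d - 2)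
        * (((P.erase p0).image (fun q => dist p0 q)).card : ℝ) := by
  classical
  have hn : 1 ≤ P.card := Finset.card_pos.mpr ⟨p0, hp0⟩
  have ht : 1 ≤ t := by
    obtain ⟨k, hk, _⟩ := hP p0 hp0
    have := hk ⟨0, by omega⟩
    omega
  choose! ι hι using hP
  have hinj : Set.InjOn ι (P : Set E) := by
    intro p hp q hq hpq
    rw [(hι p hp).2, (hι q hq).2, hpq]
  set D := (P.erase p0).image (fun q => ι q - ι p0) with hD
  have hDsub : D ⊆ cube d t := by
    intro a ha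
    rw [hD, Finset.mem_image] at ha
    obtain ⟨q, hq, rfl⟩ := ha
    rw [Finset.mem_erase] at hq
    rw [mem_cube]
    intro i
    rw [mem_box]
    have h1 := (hι q hq.2).1 i
    have h2 := (hι p0 hp0).1 i
    simp only [Pi.sub_apply]
    constructor <;> linarith [h1.1, h1.2, h2.1, h2.2]
  have hcard : D.card = P.card - 1 := by
    rw [hD, Finset.card_image_of_injOn, Finset.card_erase_of_mem hp0]
    intro q hq q' hq' h
    have hq := Finset.mem_of_mem_erase (Finset.mem_coe.mp hq)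
    have hq' := Finset.mem_of_mem_erase (Finset.mem_coe.mp hq')
    exact hinj hq hq' (sub_left_injective h)
  have hcol := card_sq_le_image_mul_collisions D (Qof (gram v))
  have hE : ((D ×ˢ D).filter (fun uv => Qof (gram v) uv.1 = Qof (gram v) uv.2)).card
      ≤ (EQset d t (gram v)).card := by
    apply Finset.card_le_card
    intro uv huv
    simp only [Finset.mem_filter, Finset.mem_product] at huv
    simp only [EQset, Finset.mem_filter, Finset.mem_product]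
    exact ⟨⟨hDsub huv.1.1, hDsub huv.1.2⟩, huv.2⟩
  have himg : D.image (Qof (gram v))
      ⊆ ((P.erase p0).image (fun q => dist p0 q)).image (fun r : ℝ => r ^ 2) := by
    intro r hr
    rw [Finset.mem_image] at hr
    obtain ⟨a, ha, rfl⟩ := hr
    rw [hD, Finset.mem_image] at ha
    obtain ⟨q, hq, rfl⟩ := ha
    rw [Finset.mem_image]
    refine ⟨dist p0 q, Finset.mem_image.mpr ⟨q, hq, rfl⟩, ?_⟩
    have hq' := Finset.mem_of_mem_erase hq
    rw [Qof_gram, dist_comm, dist_eq_norm]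
    congr 2
    conv_lhs => rw [(hι q hq').2, (hι p0 hp0).2]
    rw [add_sub_add_left_eq_sub, ← Finset.sum_sub_distrib]
    apply Finset.sum_congr rfl
    intro i _
    rw [← sub_smul]
    simp only [Pi.sub_apply]
    push_cast
    rfl
  have himgcard : (D.image (Qof (gram v))).card
      ≤ ((P.erase p0).image (fun q => dist p0 q)).card :=
    (Finset.card_le_card himg).trans Finset.card_image_le
  have hnat : (P.card - 1) ^ 2
      ≤ ((P.erase p0).image (fun q => dist p0 q)).card * (EQset d t (gram v)).card := by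
    calc (P.card - 1) ^ 2 = D.card ^ 2 := by rw [hcard]
      _ ≤ (D.image (Qof (gram v))).card
          * ((D ×ˢ D).filter (fun uv => Qof (gram v) uv.1 = Qof (gram v) uv.2)).card := hcol
      _ ≤ ((P.erase p0).image (fun q => dist p0 q)).card * (EQset d t (gram v)).card :=
        Nat.mul_le_mul himgcard hE
  have hreal : ((P.card : ℝ) - 1) ^ 2
      ≤ (((P.erase p0).image (fun q => dist p0 q)).card : ℝ)
        * ((EQset d t (gram v)).card : ℝ) := by
    have h := (Nat.cast_le (α := ℝ)).mpr hnat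
    rw [Nat.cast_pow, Nat.cast_mul, Nat.cast_sub hn, Nat.cast_one] at h
    exact h
  have hEQ := EQset_card_le d t hd ht (gram v) (gram_symm v) (gram_inj v hv)
  have hΔ0 : (0 : ℝ) ≤ (((P.erase p0).image (fun q => dist p0 q)).card : ℝ) := Nat.cast_nonneg _
  calc ((P.card : ℝ) - 1) ^ 2
      ≤ (((P.erase p0).image (fun q => dist p0 q)).card : ℝ) * ((EQset d t (gram v)).card : ℝ) :=
        hreal
    _ ≤ (((P.erase p0).image (fun q => dist p0 q)).card : ℝ)
          * ((4 * (d : ℝ) + 2) * (36 : ℝ) ^ (d - 1) * (t : ℝ) ^ (2 * d - 2)) :=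
        mul_le_mul_of_nonneg_left hEQ hΔ0
    _ = _ := by ring

omit [InnerProductSpace ℝ E] in
/-- The distances from one point are among all distances. -/
lemma pinned_card_le [DecidableEq E] (P : Finset E) (p0 : E) (hp0 : p0 ∈ P) :
    ((P.erase p0).image (fun q => dist p0 q)).card
      ≤ (P.offDiag.image (fun pq => dist pq.1 pq.2)).card := by
  classical
  apply Finset.card_le_card
  intro r hr
  rw [Finset.mem_image] at hr
  obtain ⟨q, hq, rfl⟩ := hr
  rw [Finset.mem_erase] at hq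
  rw [Finset.mem_image]
  exact ⟨(p0, q), Finset.mem_offDiag.mpr ⟨hp0, hq.2, fun h => hq.1 h.symm⟩, rfl⟩

/-- Distinct distances of a subset of a `t × ... × t` box of an arbitrary lattice. -/
lemma lattice_distinct [DecidableEq E] (d t : ℕ) (hd : 3 ≤ d) (v : Fin d → E)
    (hv : LinearIndependent ℝ v)
    (x₀ : E) (P : Finset E)
    (hP : ∀ p ∈ P, ∃ k : Fin d → ℤ, (∀ i, 0 ≤ k i ∧ k i < t) ∧ p = x₀ + ∑ i, (k i : ℝ) • v i)
    (hn : 1 ≤ P.card) :
    ((P.card : ℝ) - 1) ^ 2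
      ≤ (4 * (d : ℝ) + 2) * (36 : ℝ) ^ (d - 1) * (t : ℝ) ^ (2 * d - 2)
        * ((P.offDiag.image (fun pq => dist pq.1 pq.2)).card : ℝ) := by
  obtain ⟨p0, hp0⟩ : P.Nonempty := Finset.card_pos.mp (by omega)
  have h1 := lattice_pinned d t hd v hv x₀ P hP p0 hp0
  have h2 : (((P.erase p0).image (fun q => dist p0 q)).card : ℝ)
      ≤ ((P.offDiag.image (fun pq => dist pq.1 pq.2)).card : ℝ) := by
    exact_mod_cast pinned_card_le P p0 hp0
  have hC : (0 : ℝ) ≤ (4 * (d : ℝ) + 2) * (36 : ℝ) ^ (d - 1) * (t : ℝ) ^ (2 * d - 2) := by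
    positivity
  exact h1.trans (mul_le_mul_of_nonneg_left h2 hC)

/-- A subset of a `t × ... × t` box of a lattice has at most `t^d` elements. -/
lemma lattice_card_le (d t : ℕ) (v : Fin d → E) (x₀ : E) (P : Finset E)
    (hP : ∀ p ∈ P, ∃ k : Fin d → ℤ, (∀ i, 0 ≤ k i ∧ k i < t) ∧ p = x₀ + ∑ i, (k i : ℝ) • v i) :
    P.card ≤ t ^ d := by
  classical
  choose! ι hι using hP
  have hinj : Set.InjOn ι (P : Set E) := by
    intro p hp q hq hpq
    rw [(hι p hp).2, (hι q hq).2, hpq]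
  have hsub : P.image ι ⊆ Fintype.piFinset (fun _ : Fin d => Finset.Ico (0 : ℤ) t) := by
    intro k hk
    rw [Finset.mem_image] at hk
    obtain ⟨p, hp, rfl⟩ := hk
    rw [Fintype.mem_piFinset]
    intro i
    rw [Finset.mem_Ico]
    exact (hι p hp).1 i
  calc P.card = (P.image ι).card := (Finset.card_image_of_injOn hinj).symm
    _ ≤ (Fintype.piFinset (fun _ : Fin d => Finset.Ico (0 : ℤ) t)).card :=
        Finset.card_le_card hsub
    _ = t ^ d := by
      rw [Fintype.card_piFinset]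
      simp

/-- From an energy bound to the `n^(2/d)` bound for sets of positive density. -/
lemma dense_of_energy (d : ℕ) (hd : 3 ≤ d) (δ : ℝ) (hδ : 0 < δ) (t : ℕ) (C n Δ : ℝ)
    (hC : 0 < C) (hn2 : 2 ≤ n) (hcard : n ≤ (t : ℝ) ^ d) (hdense : δ * (t : ℝ) ^ d ≤ n)
    (hE : (n - 1) ^ 2 ≤ C * (t : ℝ) ^ (2 * d - 2) * Δ) :
    δ ^ 2 / (4 * C) * n ^ ((2 : ℝ) / d) ≤ Δ := by
  have htpos : (0 : ℝ) < t := by
    rcases Nat.eq_zero_or_pos t with h0 | hpos
    · exfalso
      rw [h0] at hcard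
      have hd0 : d ≠ 0 := by omega
      simp [hd0] at hcard
      linarith
    · exact_mod_cast hpos
  have h1 : δ ^ 2 * ((t : ℝ) ^ d) ^ 2 / 4 ≤ (n - 1) ^ 2 := by
    have h2 : δ * (t : ℝ) ^ d / 2 ≤ n - 1 := by linarith
    have h3 : 0 ≤ δ * (t : ℝ) ^ d / 2 := by positivity
    calc δ ^ 2 * ((t : ℝ) ^ d) ^ 2 / 4 = (δ * (t : ℝ) ^ d / 2) ^ 2 := by ring
      _ ≤ (n - 1) ^ 2 := pow_le_pow_left₀ h3 h2 2
  have hpow : ((t : ℝ) ^ d) ^ 2 = (t : ℝ) ^ (2 * d - 2) * (t : ℝ) ^ 2 := by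
    rw [← pow_mul, ← pow_add]
    congr 1
    omega
  have h4 : δ ^ 2 * (t : ℝ) ^ 2 / 4 * (t : ℝ) ^ (2 * d - 2)
      ≤ C * Δ * (t : ℝ) ^ (2 * d - 2) := by
    calc δ ^ 2 * (t : ℝ) ^ 2 / 4 * (t : ℝ) ^ (2 * d - 2)
        = δ ^ 2 * ((t : ℝ) ^ d) ^ 2 / 4 := by rw [hpow]; ring
      _ ≤ (n - 1) ^ 2 := h1
      _ ≤ C * (t : ℝ) ^ (2 * d - 2) * Δ := hE
      _ = C * Δ * (t : ℝ) ^ (2 * d - 2) := by ring
  have h5 : δ ^ 2 * (t : ℝ) ^ 2 / 4 ≤ C * Δ :=
    le_of_mul_le_mul_right h4 (by positivity)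
  have hdpos : (0 : ℝ) < d := by exact_mod_cast (by omega : 0 < d)
  have h6 : n ^ ((2 : ℝ) / d) ≤ (t : ℝ) ^ 2 := by
    have hn0 : (0 : ℝ) ≤ n := by linarith
    calc n ^ ((2 : ℝ) / d) ≤ ((t : ℝ) ^ d) ^ ((2 : ℝ) / d) :=
          Real.rpow_le_rpow hn0 hcard (by positivity)
      _ = (t : ℝ) ^ 2 := by
        rw [← Real.rpow_natCast, ← Real.rpow_mul htpos.le]
        have : (d : ℝ) * ((2 : ℝ) / d) = 2 := by field_simp
        rw [this]
        norm_num
  have h7 : δ ^ 2 / (4 * C) * n ^ ((2 : ℝ) / d) ≤ δ ^ 2 / (4 * C) * (t : ℝ) ^ 2 := by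
    apply mul_le_mul_of_nonneg_left h6
    positivity
  have h8 : δ ^ 2 / (4 * C) * (t : ℝ) ^ 2 ≤ Δ := by
    rw [div_mul_eq_mul_div, div_le_iff₀ (by positivity)]
    linarith
  linarith

/-- Dense subsets of a box of an arbitrary lattice determine `≫ n^(2/d)` distances. -/
lemma lattice_dense [DecidableEq E] (d t : ℕ) (hd : 3 ≤ d) (δ : ℝ) (hδ : 0 < δ) (v : Fin d → E)
    (hv : LinearIndependent ℝ v) (x₀ : E) (P : Finset E)
    (hP : ∀ p ∈ P, ∃ k : Fin d → ℤ, (∀ i, 0 ≤ k i ∧ k i < t) ∧ p = x₀ + ∑ i, (k i : ℝ) • v i)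
    (hn : 2 ≤ P.card) (hdense : δ * (t : ℝ) ^ d ≤ P.card) :
    δ ^ 2 / (4 * ((4 * (d : ℝ) + 2) * (36 : ℝ) ^ (d - 1))) * (P.card : ℝ) ^ ((2 : ℝ) / d)
      ≤ ((P.offDiag.image (fun pq => dist pq.1 pq.2)).card : ℝ) := by
  have hE := lattice_distinct d t hd v hv x₀ P hP (by omega)
  have hcard : (P.card : ℝ) ≤ (t : ℝ) ^ d := by
    exact_mod_cast lattice_card_le d t v x₀ P hP
  have hn2 : (2 : ℝ) ≤ (P.card : ℝ) := by exact_mod_cast hn
  exact dense_of_energy d hd δ hδ t ((4 * (d : ℝ) + 2) * (36 : ℝ) ^ (d - 1)) (P.card : ℝ) _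
    (by positivity) hn2 hcard hdense hE

/-- Pinned form: every point of a dense subset of a lattice box sees `≫ n^(2/d)` distances. -/
lemma lattice_dense_pinned [DecidableEq E] (d t : ℕ) (hd : 3 ≤ d) (δ : ℝ) (hδ : 0 < δ)
    (v : Fin d → E)
    (hv : LinearIndependent ℝ v) (x₀ : E) (P : Finset E)
    (hP : ∀ p ∈ P, ∃ k : Fin d → ℤ, (∀ i, 0 ≤ k i ∧ k i < t) ∧ p = x₀ + ∑ i, (k i : ℝ) • v i)
    (hn : 2 ≤ P.card) (hdense : δ * (t : ℝ) ^ d ≤ P.card) (p0 : E) (hp0 : p0 ∈ P) :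
    δ ^ 2 / (4 * ((4 * (d : ℝ) + 2) * (36 : ℝ) ^ (d - 1))) * (P.card : ℝ) ^ ((2 : ℝ) / d)
      ≤ (((P.erase p0).image (fun q => dist p0 q)).card : ℝ) := by
  have hE := lattice_pinned d t hd v hv x₀ P hP p0 hp0
  have hcard : (P.card : ℝ) ≤ (t : ℝ) ^ d := by
    exact_mod_cast lattice_card_le d t v x₀ P hP
  have hn2 : (2 : ℝ) ≤ (P.card : ℝ) := by exact_mod_cast hn
  exact dense_of_energy d hd δ hδ t ((4 * (d : ℝ) + 2) * (36 : ℝ) ^ (d - 1)) (P.card : ℝ) _
    (by positivity) hn2 hcard hdense hE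

end Vale.Agent.Lib.P054
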