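import Vale.Agent.Lib.P054.RealFib

namespace Vale.Agent.Lib.P054

open Finset

lemma supn_neg {d : ℕ} (y : Fin d → ℤ) : supn (fun j => -y j) = supn y := by
  unfold supn
  congr 1
  funext i
  simp

/-- Two primitive integer vectors that are parallel over the reals agree up to sign. -/
lemma prim_parallel {d : ℕ} (y y' : Fin d → ℤ) (hy : Finset.univ.gcd y = 1)
    (hy' : Finset.univ.gcd y' = 1) (c : ℝ) (hc : ∀ j, (y' j : ℝ) = c * (y j : ℝ)) :
    y' = y ∨ y' = fun j => -y j := by
  obtain ⟨i, hi⟩ := prim_ne_zero y hy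
  have hcross : ∀ j, y' j * y i = y' i * y j := by
    intro j
    have : ((y' j * y i : ℤ) : ℝ) = ((y' i * y j : ℤ) : ℝ) := by
      push_cast
      rw [hc j, hc i]
      ring
    exact_mod_cast this
  have hi' : y' i ≠ 0 := by
    intro h0
    obtain ⟨j, hj⟩ := prim_ne_zero y' hy'
    have := hcross j
    rw [h0, zero_mul] at this
    rcases mul_eq_zero.mp this with h1 | h1
    · exact hj h1
    · exact hi h1
  have h1 : y i ∣ y' i := by
    have hdvd : y i ∣ Finset.univ.gcd (fun j => y' i * y j) := by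
      apply Finset.dvd_gcd
      intro j _
      rw [← hcross j]
      exact dvd_mul_left _ _
    rw [Finset.gcd_mul_left, hy, mul_one] at hdvd
    exact (dvd_normalize_iff).mp hdvd
  have h2 : y' i ∣ y i := by
    have hdvd : y' i ∣ Finset.univ.gcd (fun j => y i * y' j) := by
      apply Finset.dvd_gcd
      intro j _
      have := hcross j
      rw [mul_comm (y i) (y' j), this]
      exact dvd_mul_right _ _
    rw [Finset.gcd_mul_left, hy', mul_one] at hdvd
    exact (dvd_normalize_iff).mp hdvd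
  have habs : (y' i).natAbs = (y i).natAbs := Int.natAbs_eq_of_dvd_dvd h2 h1
  rcases Int.natAbs_eq_natAbs_iff.mp habs with h | h
  · left
    funext j
    have := hcross j
    rw [h] at this
    have e : y' j * y i = y j * y i := by linarith
    exact mul_right_cancel₀ hi e
  · right
    funext j
    have := hcross j
    rw [h] at this
    have e : y' j * y i = (-y j) * y i := by linarith
    exact mul_right_cancel₀ hi e

lemma prim_parallel_supn {d : ℕ} (y y' : Fin d → ℤ) (hy : Finset.univ.gcd y = 1)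
    (hy' : Finset.univ.gcd y' = 1) (c : ℝ) (hc : ∀ j, (y' j : ℝ) = c * (y j : ℝ)) :
    supn y' = supn y := by
  rcases prim_parallel y y' hy hy' c hc with h | h
  · rw [h]
  · rw [h, supn_neg]

lemma kappa_eq {d : ℕ} (w : Fin d → ℝ) (y : Fin d → ℤ) (hy : IsPrimDir w y) :
    kappa w = 1 / (supn y : ℝ) := by
  have h : ∃ y : Fin d → ℤ, IsPrimDir w y := ⟨y, hy⟩
  unfold kappa
  rw [dif_pos h]
  obtain ⟨hg0, c0, hc0, hw0⟩ := Classical.choose_spec h
  obtain ⟨hg, c, hc, hw⟩ := hy
  have hpar : ∀ j, ((Classical.choose h) j : ℝ) = (c / c0) * (y j : ℝ) := by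
    intro j
    have e := (hw0 j).symm.trans (hw j)
    field_simp
    linarith
  rw [prim_parallel_supn y (Classical.choose h) hg hg0 (c / c0) hpar]

lemma kappa_eq_zero {d : ℕ} (w : Fin d → ℝ) (h : ¬ ∃ y : Fin d → ℤ, IsPrimDir w y) :
    kappa w = 0 := by
  unfold kappa
  rw [dif_neg h]

lemma isPrimDir_smul {d : ℕ} (w : Fin d → ℝ) (s : ℝ) (hs : s ≠ 0) (y : Fin d → ℤ) :
    IsPrimDir (fun j => s * w j) y ↔ IsPrimDir w y := by
  constructor
  · rintro ⟨hg, c, hc, hw⟩
    refine ⟨hg, c / s, div_ne_zero hc hs, fun j => ?_⟩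
    have := hw j
    field_simp
    linarith
  · rintro ⟨hg, c, hc, hw⟩
    refine ⟨hg, s * c, mul_ne_zero hs hc, fun j => ?_⟩
    show s * w j = s * c * (y j : ℝ)
    rw [hw j]
    ring

lemma kappa_smul {d : ℕ} (w : Fin d → ℝ) (s : ℝ) (hs : s ≠ 0) :
    kappa (fun j => s * w j) = kappa w := by
  by_cases h : ∃ y : Fin d → ℤ, IsPrimDir w y
  · obtain ⟨y, hy⟩ := h
    rw [kappa_eq w y hy, kappa_eq _ y ((isPrimDir_smul w s hs y).mpr hy)]
  · have h' : ¬ ∃ y : Fin d → ℤ, IsPrimDir (fun j => s * w j) y := by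
      rintro ⟨y, hy⟩
      exact h ⟨y, (isPrimDir_smul w s hs y).mp hy⟩
    rw [kappa_eq_zero w h, kappa_eq_zero _ h']

lemma kappa_le_one {d : ℕ} (w : Fin d → ℝ) : kappa w ≤ 1 := by
  by_cases h : ∃ y : Fin d → ℤ, IsPrimDir w y
  · obtain ⟨y, hy⟩ := h
    rw [kappa_eq w y hy]
    have := prim_supn_pos y hy.1
    have h1 : (1 : ℝ) ≤ (supn y : ℝ) := by exact_mod_cast this
    rw [div_le_one (by linarith)]
    exact h1
  · rw [kappa_eq_zero w h]
    norm_num

end Vale.Agent.Lib.P054
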