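import Vale.Agent.Lib.P054.InvSq

namespace Vale.Agent.Lib.P054

open Finset

/-- Primitive integer vectors in `[-T, T]^d`. -/
noncomputable def primCube (d T : ℕ) : Finset (Fin d → ℤ) :=
  (cube d T).filter (fun a => Finset.univ.gcd a = 1)

lemma supn_le_of_mem_cube {d T : ℕ} (a : Fin d → ℤ) (ha : a ∈ cube d T) : supn a ≤ T := by
  unfold supn
  apply Finset.sup_le
  intro i _
  have := mem_box.mp (mem_cube.mp ha i)
  omega

lemma mem_cube_of_supn_le {d T : ℕ} (a : Fin d → ℤ) (ha : supn a ≤ T) : a ∈ cube d T := by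
  rw [mem_cube]
  intro i
  rw [mem_box]
  have := natAbs_le_supn a i
  constructor <;> omega

/-- Grouping nonzero vectors by their primitive direction. -/
lemma kappa_group (d T : ℕ) (W : (Fin d → ℤ) → (Fin d → ℝ))
    (hW2 : ∀ (g : ℤ) (a : Fin d → ℤ), W (fun j => g * a j) = fun j => (g : ℝ) * W a j) :
    ∑ a ∈ cube d T, (if a = 0 then (0 : ℝ) else kappa (W a))
      ≤ ∑ a ∈ primCube d T, ((T : ℝ) / (supn a : ℝ)) * kappa (W a) := by
  set Dm := ((primCube d T) ×ˢ (Finset.Icc 1 T)).filter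
    (fun p : (Fin d → ℤ) × ℕ => p.2 * supn p.1 ≤ T) with hDm
  set φ : (Fin d → ℤ) × ℕ → (Fin d → ℤ) := fun p => (fun j => (p.2 : ℤ) * p.1 j) with hφ
  have h1 : ∑ a ∈ cube d T, (if a = 0 then (0 : ℝ) else kappa (W a))
      = ∑ a ∈ (cube d T).filter (fun a => a ≠ 0), kappa (W a) := by
    rw [Finset.sum_filter]
    apply Finset.sum_congr rfl
    intro a _
    by_cases h : a = 0
    · simp [h]
    · simp [h]
  have hsub : (cube d T).filter (fun a => a ≠ 0) ⊆ Dm.image φ := by
    intro a ha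
    rw [Finset.mem_filter] at ha
    obtain ⟨haB, ha0⟩ := ha
    have hex : ∃ i, a i ≠ 0 := by
      by_contra h
      simp only [not_exists, not_not] at h
      exact ha0 (funext h)
    obtain ⟨i0, hi0⟩ := hex
    obtain ⟨a', ha', hgcd⟩ := Finset.extract_gcd a (s := Finset.univ) ⟨i0, Finset.mem_univ i0⟩
    set G0 := Finset.univ.gcd a with hG0
    have hG0ne : G0 ≠ 0 := by
      intro h0
      rw [hG0, Finset.gcd_eq_zero_iff] at h0
      exact hi0 (h0 i0 (Finset.mem_univ i0))
    have hG0nn : 0 ≤ G0 := by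
      have : normalize G0 = G0 := Finset.normalize_gcd
      rw [← Int.abs_eq_normalize] at this
      rw [← this]
      exact abs_nonneg _
    set g := G0.natAbs with hg
    have hgG : (g : ℤ) = G0 := Int.natAbs_of_nonneg hG0nn
    have hgpos : 1 ≤ g := Int.natAbs_pos.mpr hG0ne
    have hcoord : ∀ j, a j = (g : ℤ) * a' j := by
      intro j
      rw [hgG]
      exact ha' j (Finset.mem_univ j)
    have habs : ∀ j, (a j).natAbs = g * (a' j).natAbs := by
      intro j
      rw [hcoord j, Int.natAbs_mul, Int.natAbs_natCast]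
    have haT : ∀ j, (a j).natAbs ≤ T := by
      intro j
      have := mem_box.mp (mem_cube.mp haB j)
      omega
    have ha'B : a' ∈ cube d T := by
      apply mem_cube_of_supn_le
      unfold supn
      apply Finset.sup_le
      intro j _
      have h1 := habs j
      have h2 := haT j
      have h3 : (a' j).natAbs ≤ g * (a' j).natAbs := Nat.le_mul_of_pos_left _ hgpos
      omega
    have hsupn : g * supn a' ≤ T := by
      obtain ⟨i, _, hi⟩ := Finset.exists_mem_eq_sup Finset.univ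
        (⟨i0, Finset.mem_univ i0⟩ : (Finset.univ : Finset (Fin d)).Nonempty)
        (fun i => (a' i).natAbs)
      have : supn a' = (a' i).natAbs := hi
      rw [this, ← habs i]
      exact haT i
    have hsupn1 : 1 ≤ supn a' := prim_supn_pos a' hgcd
    have hgT : g ≤ T := by
      have : g * 1 ≤ g * supn a' := Nat.mul_le_mul_left g hsupn1
      omega
    rw [Finset.mem_image]
    refine ⟨(a', g), ?_, ?_⟩
    · rw [hDm, Finset.mem_filter, Finset.mem_product]
      refine ⟨⟨?_, Finset.mem_Icc.mpr ⟨hgpos, hgT⟩⟩, hsupn⟩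
      rw [primCube, Finset.mem_filter]
      exact ⟨ha'B, hgcd⟩
    · funext j
      exact (hcoord j).symm
  have h2 : ∑ a ∈ (cube d T).filter (fun a => a ≠ 0), kappa (W a)
      ≤ ∑ a ∈ Dm.image φ, kappa (W a) :=
    Finset.sum_le_sum_of_subset_of_nonneg hsub (fun a _ _ => kappa_nonneg _)
  have h3 : ∑ a ∈ Dm.image φ, kappa (W a) ≤ ∑ p ∈ Dm, kappa (W (φ p)) :=
    Finset.sum_image_le_of_nonneg (fun a _ => kappa_nonneg _)
  have h4 : ∀ p ∈ Dm, kappa (W (φ p)) = kappa (W p.1) := by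
    intro p hp
    rw [hDm, Finset.mem_filter, Finset.mem_product] at hp
    have hg1 := (Finset.mem_Icc.mp hp.1.2).1
    have hg0 : ((p.2 : ℤ) : ℝ) ≠ 0 := by
      have : (0 : ℝ) < ((p.2 : ℤ) : ℝ) := by exact_mod_cast hg1
      exact this.ne'
    have e : W (φ p) = fun j => ((p.2 : ℤ) : ℝ) * W p.1 j := hW2 (p.2 : ℤ) p.1
    rw [e, kappa_smul _ _ hg0]
  have h5 : ∑ p ∈ Dm, kappa (W p.1)
      = ∑ a ∈ primCube d T, ∑ g ∈ Finset.Icc 1 T,
          (if g * supn a ≤ T then kappa (W a) else 0) := by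
    rw [hDm, Finset.sum_filter, Finset.sum_product]
  have h6 : ∀ a ∈ primCube d T, ∑ g ∈ Finset.Icc 1 T,
      (if g * supn a ≤ T then kappa (W a) else 0)
      ≤ ((T : ℝ) / (supn a : ℝ)) * kappa (W a) := by
    intro a ha
    rw [primCube, Finset.mem_filter] at ha
    have hρ := prim_supn_pos a ha.2
    rw [← Finset.sum_filter, Finset.sum_const, nsmul_eq_mul]
    apply mul_le_mul_of_nonneg_right _ (kappa_nonneg _)
    have hsub2 : (Finset.Icc 1 T).filter (fun g => g * supn a ≤ T)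
        ⊆ Finset.Icc 1 (T / supn a) := by
      intro g hg
      rw [Finset.mem_filter, Finset.mem_Icc] at hg
      rw [Finset.mem_Icc]
      exact ⟨hg.1.1, (Nat.le_div_iff_mul_le hρ).mpr hg.2⟩
    have hc := Finset.card_le_card hsub2
    rw [Nat.card_Icc, Nat.add_sub_cancel] at hc
    have hc2 : (((Finset.Icc 1 T).filter (fun g => g * supn a ≤ T)).card : ℝ)
        ≤ ((T / supn a : ℕ) : ℝ) := by
      exact_mod_cast hc
    exact hc2.trans Nat.cast_div_le
  calc ∑ a ∈ cube d T, (if a = 0 then (0 : ℝ) else kappa (W a))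
      = ∑ a ∈ (cube d T).filter (fun a => a ≠ 0), kappa (W a) := h1
    _ ≤ ∑ a ∈ Dm.image φ, kappa (W a) := h2
    _ ≤ ∑ p ∈ Dm, kappa (W (φ p)) := h3
    _ = ∑ p ∈ Dm, kappa (W p.1) := Finset.sum_congr rfl h4
    _ = ∑ a ∈ primCube d T, ∑ g ∈ Finset.Icc 1 T,
          (if g * supn a ≤ T then kappa (W a) else 0) := h5
    _ ≤ ∑ a ∈ primCube d T, ((T : ℝ) / (supn a : ℝ)) * kappa (W a) := Finset.sum_le_sum h6

end Vale.Agent.Lib.P054
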