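import Vale.Agent.Lib.P054.Chain

namespace Vale.Agent.Lib.P054

open Finset

/-- The sup norm of an integer vector. -/
def supn {d : ℕ} (y : Fin d → ℤ) : ℕ := Finset.univ.sup (fun i => (y i).natAbs)

lemma natAbs_le_supn {d : ℕ} (y : Fin d → ℤ) (i : Fin d) : (y i).natAbs ≤ supn y :=
  Finset.le_sup (f := fun i => (y i).natAbs) (Finset.mem_univ i)

/-- The number of `b ∈ [-T, T]^d` with `w · b = 0`, for a real vector `w`. -/
noncomputable def Lreal (d T : ℕ) (w : Fin d → ℝ) : ℕ :=
  ((cube d T).filter (fun b => ∑ j, w j * (b j : ℝ) = 0)).card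

/-- `y` is a primitive integer vector parallel to the real vector `w`. -/
def IsPrimDir {d : ℕ} (w : Fin d → ℝ) (y : Fin d → ℤ) : Prop :=
  Finset.univ.gcd y = 1 ∧ ∃ c : ℝ, c ≠ 0 ∧ ∀ j, w j = c * (y j : ℝ)

lemma Lreal_eq_Lint (d T : ℕ) (w : Fin d → ℝ) (y : Fin d → ℤ) (c : ℝ) (hc : c ≠ 0)
    (hw : ∀ j, w j = c * (y j : ℝ)) : Lreal d T w = Lint d T y := by
  unfold Lreal Lint
  congr 1
  apply Finset.filter_congr
  intro b _
  have e : ∑ j, w j * (b j : ℝ) = c * ((∑ j, y j * b j : ℤ) : ℝ) := by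
    push_cast
    rw [Finset.mul_sum]
    apply Finset.sum_congr rfl
    intro j _
    rw [hw j]
    ring
  rw [e]
  constructor
  · intro h
    rcases mul_eq_zero.mp h with h1 | h1
    · exact absurd h1 hc
    · exact_mod_cast h1
  · intro h
    rw [h]
    simp

lemma Lreal_irr (d T : ℕ) (w : Fin d → ℝ) (i j : Fin d) (hi : w i ≠ 0)
    (hirr : Irrational (w j / w i)) : Lreal d T w ≤ (2 * T + 1) ^ (d - 2) := by
  have hij : i ≠ j := by
    intro h
    rw [← h, div_self hi] at hirr
    exact hirr ⟨1, by simp⟩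
  have hcard : (Fintype.piFinset (fun _ : {l : Fin d // l ≠ i ∧ l ≠ j} => box T)).card
      = (2 * T + 1) ^ (d - 2) := by
    rw [Fintype.card_piFinset]
    simp only [Finset.prod_const, card_box, Finset.card_univ]
    congr 1
    rw [Fintype.card_subtype]
    have : (Finset.univ.filter (fun l : Fin d => l ≠ i ∧ l ≠ j)) = Finset.univ \ {i, j} := by
      ext l
      simp [not_or]
    rw [this, Finset.card_univ_sdiff, Finset.card_pair hij, Fintype.card_fin]
  rw [← hcard]
  apply Finset.card_le_card_of_injOn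
    (fun b : Fin d → ℤ => (fun l : {l : Fin d // l ≠ i ∧ l ≠ j} => b l.1))
  · intro b hb
    have hb := Finset.mem_coe.mp hb
    rw [Finset.mem_filter, mem_cube] at hb
    apply Finset.mem_coe.mpr
    rw [Fintype.mem_piFinset]
    intro l
    exact hb.1 l.1
  · intro b hb b2 hb2 h
    have hb := Finset.mem_coe.mp hb
    have hb2 := Finset.mem_coe.mp hb2
    rw [Finset.mem_filter] at hb hb2
    have hoff : ∀ l : Fin d, l ≠ i ∧ l ≠ j → b l = b2 l := by
      intro l hl
      exact congrFun h ⟨l, hl⟩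
    have hdiff : ∑ l, w l * ((b l : ℝ) - (b2 l : ℝ)) = 0 := by
      have e : ∑ l, w l * ((b l : ℝ) - (b2 l : ℝ))
          = ∑ l, w l * (b l : ℝ) - ∑ l, w l * (b2 l : ℝ) := by
        rw [← Finset.sum_sub_distrib]
        apply Finset.sum_congr rfl
        intro l _
        ring
      rw [e, hb.2, hb2.2, sub_zero]
    rw [Finset.sum_eq_add_of_mem i j (Finset.mem_univ _) (Finset.mem_univ _) hij] at hdiff
    · have hj : b j = b2 j := by
        by_contra hne
        have hne' : ((b j : ℝ) - (b2 j : ℝ)) ≠ 0 := by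
          intro h0
          apply hne
          have : (b j : ℝ) = (b2 j : ℝ) := by linarith
          exact_mod_cast this
        have hq : w j / w i = -(((b i - b2 i : ℤ) : ℝ)) / ((b j - b2 j : ℤ) : ℝ) := by
          push_cast
          rw [div_eq_div_iff hi hne']
          linarith
        exact hirr.ne_rational (-(b i - b2 i)) (b j - b2 j) (by push_cast; rw [hq]; push_cast; ring)
      have hi' : b i = b2 i := by
        rw [hj, sub_self, mul_zero, add_zero] at hdiff
        have : (b i : ℝ) - (b2 i : ℝ) = 0 := by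
          rcases mul_eq_zero.mp hdiff with h1 | h1
          · exact absurd h1 hi
          · exact h1
        have : (b i : ℝ) = (b2 i : ℝ) := by linarith
        exact_mod_cast this
      funext l
      by_cases hli : l = i
      · rw [hli]; exact hi'
      · by_cases hlj : l = j
        · rw [hlj]; exact hj
        · exact hoff l ⟨hli, hlj⟩
    · intro l _ hl
      rw [hoff l hl, sub_self, mul_zero]

/-- A nonzero real vector is parallel to a primitive integer vector, or has two coordinates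
with irrational ratio. -/
lemma dichotomy (d : ℕ) (w : Fin d → ℝ) (hw : w ≠ 0) :
    (∃ y : Fin d → ℤ, IsPrimDir w y) ∨ (∃ i j, w i ≠ 0 ∧ Irrational (w j / w i)) := by
  have hex : ∃ i, w i ≠ 0 := by
    by_contra h
    simp only [not_exists, not_not] at h
    exact hw (funext h)
  obtain ⟨i, hi⟩ := hex
  by_cases hrat : ∀ j, ∃ q : ℚ, (q : ℝ) = w j / w i
  · left
    choose q hq using hrat
    set D : ℕ := ∏ j, (q j).den with hD
    have hDpos : 0 < D := Finset.prod_pos (fun j _ => (q j).den_pos)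
    set y2 : Fin d → ℤ := fun j => (q j).num * ((D / (q j).den : ℕ) : ℤ) with hy2
    have hy2q : ∀ j, ((y2 j : ℤ) : ℚ) = q j * (D : ℚ) := by
      intro j
      have hdvd : (q j).den ∣ D := Finset.dvd_prod_of_mem _ (Finset.mem_univ j)
      have hden : ((q j).den : ℚ) ≠ 0 := by exact_mod_cast (q j).den_pos.ne'
      have e1 : (D : ℚ) = ((q j).den : ℚ) * ((D / (q j).den : ℕ) : ℚ) := by
        rw [← Nat.cast_mul, Nat.mul_div_cancel' hdvd]
      simp only [hy2]
      push_cast
      calc ((q j).num : ℚ) * ((D / (q j).den : ℕ) : ℚ)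
          = (q j * ((q j).den : ℚ)) * ((D / (q j).den : ℕ) : ℚ) := by rw [Rat.mul_den_eq_num]
        _ = q j * (((q j).den : ℚ) * ((D / (q j).den : ℕ) : ℚ)) := by ring
        _ = q j * (D : ℚ) := by rw [← e1]
    have hw2 : ∀ j, w j = (w i / (D : ℝ)) * ((y2 j : ℤ) : ℝ) := by
      intro j
      have h1 : ((y2 j : ℤ) : ℝ) = (q j : ℝ) * (D : ℝ) := by
        have := congrArg (fun x : ℚ => (x : ℝ)) (hy2q j)
        simpa using this
      rw [h1, hq j]
      have hD0 : (D : ℝ) ≠ 0 := by exact_mod_cast hDpos.ne'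
      field_simp
    obtain ⟨y, hy, hgcd⟩ := Finset.extract_gcd y2 (Finset.univ_nonempty_iff.mpr ⟨i⟩)
    have hy2i : y2 i ≠ 0 := by
      intro h0
      have := hw2 i
      rw [h0] at this
      simp at this
      exact hi this
    have hg0 : (Finset.univ.gcd y2 : ℤ) ≠ 0 := by
      intro h0
      rw [Finset.gcd_eq_zero_iff] at h0
      exact hy2i (h0 i (Finset.mem_univ i))
    refine ⟨y, hgcd, (w i / (D : ℝ)) * ((Finset.univ.gcd y2 : ℤ) : ℝ), ?_, ?_⟩
    · apply mul_ne_zero
      · exact div_ne_zero hi (by exact_mod_cast hDpos.ne')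
      · exact_mod_cast hg0
    · intro j
      rw [hw2 j, hy j (Finset.mem_univ j)]
      push_cast
      ring
  · right
    simp only [not_forall, not_exists] at hrat
    obtain ⟨j, hj⟩ := hrat
    refine ⟨i, j, hi, ?_⟩
    rintro ⟨q, hq⟩
    exact hj q hq

lemma prim_ne_zero {d : ℕ} (y : Fin d → ℤ) (hy : Finset.univ.gcd y = 1) : ∃ i, y i ≠ 0 := by
  by_contra h
  simp only [not_exists, not_not] at h
  have : Finset.univ.gcd y = 0 := Finset.gcd_eq_zero_iff.mpr (fun i _ => h i)
  rw [this] at hy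
  exact zero_ne_one hy

lemma prim_supn_pos {d : ℕ} (y : Fin d → ℤ) (hy : Finset.univ.gcd y = 1) : 1 ≤ supn y := by
  obtain ⟨i, hi⟩ := prim_ne_zero y hy
  have h1 := natAbs_le_supn y i
  have h2 : 0 < (y i).natAbs := Int.natAbs_pos.mpr hi
  omega

lemma Lint_prim_bound (k T : ℕ) (y : Fin (k + 1) → ℤ) (hy : Finset.univ.gcd y = 1) :
    Lint (k + 1) T y * supn y * (2 * T + 1) ≤ (2 * T + supn y) * (2 * T + 1) ^ k := by
  obtain ⟨i, _, hi⟩ := Finset.exists_mem_eq_sup Finset.univ Finset.univ_nonempty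
    (fun i => (y i).natAbs)
  have hsup : supn y = (y i).natAbs := hi
  have hpos := prim_supn_pos y hy
  have hyi : y i ≠ 0 := by
    intro h0
    rw [hsup, h0] at hpos
    simp at hpos
  have hg : chainGcd k (y i).natAbs (fun j => y (i.succAbove j)) = 1 := by
    set g := chainGcd k (y i).natAbs (fun j => y (i.succAbove j)) with hgdef
    have h1 : (g : ℤ) ∣ y i := Int.natCast_dvd.mpr (chainGcd_dvd_left k _ _)
    have h2 : ∀ j, (g : ℤ) ∣ y (i.succAbove j) := fun j => chainGcd_dvd_coord k _ _ j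
    have h3 : (g : ℤ) ∣ Finset.univ.gcd y := by
      apply Finset.dvd_gcd
      intro l _
      rcases Fin.eq_self_or_eq_succAbove i l with hl | ⟨j, hj⟩
      · rw [hl]; exact h1
      · rw [hj]; exact h2 j
    rw [hy] at h3
    have h4 : g ∣ 1 := by exact_mod_cast h3
    exact Nat.dvd_one.mp h4
  have := Lint_bound k T y i hyi
  rw [hg, Nat.div_one, ← hsup] at this
  exact this

open Classical in
/-- `1 / (sup norm)` of a primitive integer vector parallel to `w`, or `0` if there is none. -/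
noncomputable def kappa {d : ℕ} (w : Fin d → ℝ) : ℝ :=
  if h : ∃ y : Fin d → ℤ, IsPrimDir w y then 1 / (supn (Classical.choose h) : ℝ) else 0

lemma kappa_nonneg {d : ℕ} (w : Fin d → ℝ) : 0 ≤ kappa w := by
  unfold kappa
  split_ifs
  · positivity
  · exact le_refl _

lemma Lreal_le (k T : ℕ) (w : Fin (k + 2) → ℝ) (hw : w ≠ 0) :
    (Lreal (k + 2) T w : ℝ) ≤ ((2 * T + 1 : ℕ) : ℝ) ^ k * (2 * (T : ℝ) * kappa w + 1) := by
  by_cases h : ∃ y : Fin (k + 2) → ℤ, IsPrimDir w y
  · have hk : kappa w = 1 / (supn (Classical.choose h) : ℝ) := by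
      unfold kappa
      rw [dif_pos h]
    set y := Classical.choose h with hydef
    obtain ⟨hgcd, c, hc, hwc⟩ := Classical.choose_spec h
    rw [hk, Lreal_eq_Lint (k + 2) T w y c hc hwc]
    have hb := Lint_prim_bound (k + 1) T y hgcd
    have hρ := prim_supn_pos y hgcd
    have hρ' : (0 : ℝ) < (supn y : ℝ) := by exact_mod_cast hρ
    have hb' : (Lint (k + 2) T y : ℝ) * (supn y : ℝ) * ((2 * T + 1 : ℕ) : ℝ)
        ≤ ((2 * T + supn y : ℕ) : ℝ) * ((2 * T + 1 : ℕ) : ℝ) ^ (k + 1) := by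
      exact_mod_cast hb
    have hT : (0 : ℝ) < ((2 * T + 1 : ℕ) : ℝ) := by positivity
    have hb2 : (Lint (k + 2) T y : ℝ) * (supn y : ℝ)
        ≤ ((2 * T + supn y : ℕ) : ℝ) * ((2 * T + 1 : ℕ) : ℝ) ^ k := by
      have e : ((2 * T + supn y : ℕ) : ℝ) * ((2 * T + 1 : ℕ) : ℝ) ^ (k + 1)
          = (((2 * T + supn y : ℕ) : ℝ) * ((2 * T + 1 : ℕ) : ℝ) ^ k) * ((2 * T + 1 : ℕ) : ℝ) := by
        ring
      rw [e] at hb'
      exact le_of_mul_le_mul_right hb' hT
    have e2 : ((2 * T + 1 : ℕ) : ℝ) ^ k * (2 * (T : ℝ) * (1 / (supn y : ℝ)) + 1)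
        = (((2 * T + supn y : ℕ) : ℝ) * ((2 * T + 1 : ℕ) : ℝ) ^ k) / (supn y : ℝ) := by
      push_cast
      field_simp
    rw [e2, le_div_iff₀ hρ']
    exact hb2
  · have hk : kappa w = 0 := by
      unfold kappa
      rw [dif_neg h]
    rw [hk]
    rcases dichotomy (k + 2) w hw with hA | ⟨i, j, hi, hirr⟩
    · exact absurd hA h
    · have := Lreal_irr (k + 2) T w i j hi hirr
      have h2 : ((Lreal (k + 2) T w : ℕ) : ℝ) ≤ (((2 * T + 1) ^ (k + 2 - 2) : ℕ) : ℝ) := by
        exact_mod_cast this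
      simp only [Nat.add_sub_cancel] at h2
      push_cast at h2 ⊢
      simpa using h2

end Vale.Agent.Lib.P054
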