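import Vale.Agent.Lib.P054.GcdSum

namespace Vale.Agent.Lib.P054

open Finset

/-- The contribution of `(x, y, z)` when `x` is a coordinate of largest absolute value. -/
noncomputable def M1 (T : ℕ) (c : ℤ) (x y z : ℤ) : ℕ :=
  if x ≠ 0 then
    (if y.natAbs ≤ x.natAbs ∧ z.natAbs ≤ x.natAbs then (fib T x y z c).card else 0)
  else 0

lemma inner_sum_le (T : ℕ) (c : ℤ) (x : ℤ) (hx : x ≠ 0) :
    ∑ y ∈ box T, ∑ z ∈ box T,
        (if y.natAbs ≤ x.natAbs ∧ z.natAbs ≤ x.natAbs then (fib T x y z c).card else 0)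
      ≤ 36 * T ^ 2 * (∑ e ∈ (x.natAbs).divisors, e) + (4 * T + 1) * (2 * T + 1) ^ 2 := by
  set n := x.natAbs with hn
  have hnpos : 0 < n := Int.natAbs_pos.mpr hx
  have hpt : ∀ y z : ℤ,
      (if y.natAbs ≤ n ∧ z.natAbs ≤ n then (fib T x y z c).card else 0) * n
        ≤ 4 * T ^ 2 * (if y.natAbs ≤ n ∧ z.natAbs ≤ n then
            Nat.gcd (Nat.gcd n y.natAbs) z.natAbs else 0) + (4 * T + 1) * n := by
    intro y z
    split_ifs with h
    · have := fib_card_mul_le T x y z c hx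
      have e : Int.gcd (Int.gcd x y : ℤ) z = Nat.gcd (Nat.gcd n y.natAbs) z.natAbs := by
        simp [Int.gcd, hn]
      rw [e] at this
      exact this
    · simp
  have hmul : (∑ y ∈ box T, ∑ z ∈ box T,
        (if y.natAbs ≤ n ∧ z.natAbs ≤ n then (fib T x y z c).card else 0)) * n
      ≤ (36 * T ^ 2 * (∑ e ∈ n.divisors, e) + (4 * T + 1) * (2 * T + 1) ^ 2) * n := by
    calc (∑ y ∈ box T, ∑ z ∈ box T,
        (if y.natAbs ≤ n ∧ z.natAbs ≤ n then (fib T x y z c).card else 0)) * n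
        = ∑ y ∈ box T, ∑ z ∈ box T,
          (if y.natAbs ≤ n ∧ z.natAbs ≤ n then (fib T x y z c).card else 0) * n := by
          rw [Finset.sum_mul]
          exact Finset.sum_congr rfl (fun y _ => Finset.sum_mul _ _ _)
      _ ≤ ∑ y ∈ box T, ∑ z ∈ box T, (4 * T ^ 2 * (if y.natAbs ≤ n ∧ z.natAbs ≤ n then
            Nat.gcd (Nat.gcd n y.natAbs) z.natAbs else 0) + (4 * T + 1) * n) :=
          Finset.sum_le_sum (fun y _ => Finset.sum_le_sum (fun z _ => hpt y z))
      _ = 4 * T ^ 2 * (∑ y ∈ box T, ∑ z ∈ box T, (if y.natAbs ≤ n ∧ z.natAbs ≤ n then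
            Nat.gcd (Nat.gcd n y.natAbs) z.natAbs else 0))
            + (2 * T + 1) * ((2 * T + 1) * ((4 * T + 1) * n)) := by
          simp only [Finset.sum_add_distrib, Finset.mul_sum, Finset.sum_const, card_box,
            smul_eq_mul]
      _ ≤ 4 * T ^ 2 * (9 * n * ∑ e ∈ n.divisors, e)
            + (2 * T + 1) * ((2 * T + 1) * ((4 * T + 1) * n)) := by
          have := gcd_sum_le T n hnpos
          gcongr
      _ = (36 * T ^ 2 * (∑ e ∈ n.divisors, e) + (4 * T + 1) * (2 * T + 1) ^ 2) * n := by ring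
  exact Nat.le_of_mul_le_mul_right hmul hnpos

lemma M1_sum_le (T : ℕ) (c : ℤ) (hT : 1 ≤ T) :
    ∑ x ∈ box T, ∑ y ∈ box T, ∑ z ∈ box T, M1 T c x y z ≤ 243 * T ^ 4 := by
  have h1 : ∀ x ∈ box T, ∑ y ∈ box T, ∑ z ∈ box T, M1 T c x y z
      ≤ 36 * T ^ 2 * (∑ e ∈ (x.natAbs).divisors, e) + (4 * T + 1) * (2 * T + 1) ^ 2 := by
    intro x _
    by_cases hx : x = 0
    · simp [M1, hx]
    · simp only [M1, if_pos hx]
      exact inner_sum_le T c x hx
  calc ∑ x ∈ box T, ∑ y ∈ box T, ∑ z ∈ box T, M1 T c x y z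
      ≤ ∑ x ∈ box T, (36 * T ^ 2 * (∑ e ∈ (x.natAbs).divisors, e)
          + (4 * T + 1) * (2 * T + 1) ^ 2) := Finset.sum_le_sum h1
    _ = 36 * T ^ 2 * (∑ x ∈ box T, ∑ e ∈ (x.natAbs).divisors, e)
          + (2 * T + 1) * ((4 * T + 1) * (2 * T + 1) ^ 2) := by
        simp only [Finset.sum_add_distrib, Finset.mul_sum, Finset.sum_const, card_box,
          smul_eq_mul]
    _ ≤ 36 * T ^ 2 * (3 * T ^ 2) + (2 * T + 1) * ((4 * T + 1) * (2 * T + 1) ^ 2) := by
        have := sigma_sum_le T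
        gcongr
    _ ≤ 243 * T ^ 4 := by
        have h2 : 2 * T + 1 ≤ 3 * T := by omega
        have h4 : 4 * T + 1 ≤ 5 * T := by omega
        calc 36 * T ^ 2 * (3 * T ^ 2) + (2 * T + 1) * ((4 * T + 1) * (2 * T + 1) ^ 2)
            ≤ 36 * T ^ 2 * (3 * T ^ 2) + (3 * T) * ((5 * T) * (3 * T) ^ 2) := by gcongr
          _ = 243 * T ^ 4 := by ring

lemma fib_swap12 (T : ℕ) (x y z c : ℤ) : (fib T x y z c).card = (fib T y x z c).card := by
  apply Finset.card_nbij' (fun b : ℤ × ℤ × ℤ => (b.2.1, b.1, b.2.2))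
    (fun b : ℤ × ℤ × ℤ => (b.2.1, b.1, b.2.2))
  · intro b hb
    have hb := Finset.mem_coe.mp hb
    simp only [fib, Finset.mem_filter, Finset.mem_product] at hb
    apply Finset.mem_coe.mpr
    simp only [fib, Finset.mem_filter, Finset.mem_product]
    refine ⟨⟨hb.1.2.1, hb.1.1, hb.1.2.2⟩, ?_⟩
    linarith [hb.2]
  · intro b hb
    have hb := Finset.mem_coe.mp hb
    simp only [fib, Finset.mem_filter, Finset.mem_product] at hb
    apply Finset.mem_coe.mpr
    simp only [fib, Finset.mem_filter, Finset.mem_product]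
    refine ⟨⟨hb.1.2.1, hb.1.1, hb.1.2.2⟩, ?_⟩
    linarith [hb.2]
  · intro b _; rfl
  · intro b _; rfl

lemma fib_swap13 (T : ℕ) (x y z c : ℤ) : (fib T x y z c).card = (fib T z y x c).card := by
  apply Finset.card_nbij' (fun b : ℤ × ℤ × ℤ => (b.2.2, b.2.1, b.1))
    (fun b : ℤ × ℤ × ℤ => (b.2.2, b.2.1, b.1))
  · intro b hb
    have hb := Finset.mem_coe.mp hb
    simp only [fib, Finset.mem_filter, Finset.mem_product] at hb
    apply Finset.mem_coe.mpr
    simp only [fib, Finset.mem_filter, Finset.mem_product]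
    refine ⟨⟨hb.1.2.2, hb.1.2.1, hb.1.1⟩, ?_⟩
    linarith [hb.2]
  · intro b hb
    have hb := Finset.mem_coe.mp hb
    simp only [fib, Finset.mem_filter, Finset.mem_product] at hb
    apply Finset.mem_coe.mpr
    simp only [fib, Finset.mem_filter, Finset.mem_product]
    refine ⟨⟨hb.1.2.2, hb.1.2.1, hb.1.1⟩, ?_⟩
    linarith [hb.2]
  · intro b _; rfl
  · intro b _; rfl

lemma fib_card_le (T : ℕ) (x y z c : ℤ) : (fib T x y z c).card ≤ (2 * T + 1) ^ 3 := by
  calc (fib T x y z c).card ≤ (box T ×ˢ box T ×ˢ box T).card := Finset.card_filter_le _ _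
    _ = (2 * T + 1) ^ 3 := by
      simp only [Finset.card_product, card_box]
      ring

lemma fib_pointwise (T : ℕ) (c : ℤ) (x y z : ℤ) :
    (fib T x y z c).card
      ≤ (if (x, y, z) = ((0 : ℤ), (0 : ℤ), (0 : ℤ)) then (2 * T + 1) ^ 3 else 0)
        + M1 T c x y z + M1 T c y x z + M1 T c z y x := by
  by_cases h0 : (x, y, z) = ((0 : ℤ), (0 : ℤ), (0 : ℤ))
  · rw [if_pos h0]
    have := fib_card_le T x y z c
    omega
  · rw [if_neg h0]
    have hne : x ≠ 0 ∨ y ≠ 0 ∨ z ≠ 0 := by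
      by_contra hcon
      simp only [not_or, not_not] at hcon
      exact h0 (by rw [hcon.1, hcon.2.1, hcon.2.2])
    by_cases hx : y.natAbs ≤ x.natAbs ∧ z.natAbs ≤ x.natAbs
    · have hx0 : x ≠ 0 := by
        rcases hne with h | h | h
        · exact h
        · intro hx0; apply h; have := hx.1; rw [hx0] at this; simpa using this
        · intro hx0; apply h; have := hx.2; rw [hx0] at this; simpa using this
      have : M1 T c x y z = (fib T x y z c).card := by simp [M1, hx0, hx]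
      omega
    · by_cases hy : x.natAbs ≤ y.natAbs ∧ z.natAbs ≤ y.natAbs
      · have hy0 : y ≠ 0 := by
          rcases hne with h | h | h
          · intro hy0; apply h; have := hy.1; rw [hy0] at this; simpa using this
          · exact h
          · intro hy0; apply h; have := hy.2; rw [hy0] at this; simpa using this
        have : M1 T c y x z = (fib T x y z c).card := by
          simp [M1, hy0, hy, fib_swap12 T x y z c]
        omega
      · have hz : y.natAbs ≤ z.natAbs ∧ x.natAbs ≤ z.natAbs := by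
          constructor <;> omega
        have hz0 : z ≠ 0 := by
          rcases hne with h | h | h
          · intro hz0; apply h; have := hz.2; rw [hz0] at this; simpa using this
          · intro hz0; apply h; have := hz.1; rw [hz0] at this; simpa using this
          · exact h
        have : M1 T c z y x = (fib T x y z c).card := by
          simp [M1, hz0, hz, fib_swap13 T x y z c]
        omega

/-- Pairs `(a, b)` of integer vectors in `[-T, T]^3` with `a · b = c`. -/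
noncomputable def S3 (T : ℕ) (c : ℤ) : Finset ((ℤ × ℤ × ℤ) × (ℤ × ℤ × ℤ)) :=
  ((box T ×ˢ box T ×ˢ box T) ×ˢ (box T ×ˢ box T ×ˢ box T)).filter
    (fun ab => ab.1.1 * ab.2.1 + ab.1.2.1 * ab.2.2.1 + ab.1.2.2 * ab.2.2.2 = c)

lemma S3_card_le (T : ℕ) (c : ℤ) (hT : 1 ≤ T) : (S3 T c).card ≤ 756 * T ^ 4 := by
  have h1 : (S3 T c).card = ∑ x ∈ box T, ∑ y ∈ box T, ∑ z ∈ box T, (fib T x y z c).card := by
    rw [S3, Finset.card_filter, Finset.sum_product, Finset.sum_product]
    apply Finset.sum_congr rfl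
    intro x _
    rw [Finset.sum_product]
    apply Finset.sum_congr rfl
    intro y _
    apply Finset.sum_congr rfl
    intro z _
    rw [fib, Finset.card_filter]
  have hM := M1_sum_le T c hT
  have hZ : ∑ x ∈ box T, ∑ y ∈ box T, ∑ z ∈ box T,
      (if (x, y, z) = ((0 : ℤ), (0 : ℤ), (0 : ℤ)) then (2 * T + 1) ^ 3 else 0)
      ≤ (2 * T + 1) ^ 3 := by
    have : ∑ x ∈ box T, ∑ y ∈ box T, ∑ z ∈ box T,
        (if (x, y, z) = ((0 : ℤ), (0 : ℤ), (0 : ℤ)) then (2 * T + 1) ^ 3 else 0)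
        = ∑ a ∈ box T ×ˢ box T ×ˢ box T,
          (if a = ((0 : ℤ), (0 : ℤ), (0 : ℤ)) then (2 * T + 1) ^ 3 else 0) := by
      rw [Finset.sum_product]
      apply Finset.sum_congr rfl
      intro x _
      rw [Finset.sum_product]
    rw [this, Finset.sum_ite_eq']
    split_ifs <;> omega
  have h2 : ∑ x ∈ box T, ∑ y ∈ box T, ∑ z ∈ box T, M1 T c y x z
      = ∑ x ∈ box T, ∑ y ∈ box T, ∑ z ∈ box T, M1 T c x y z := Finset.sum_comm
  have h3 : ∑ x ∈ box T, ∑ y ∈ box T, ∑ z ∈ box T, M1 T c z y x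
      = ∑ x ∈ box T, ∑ y ∈ box T, ∑ z ∈ box T, M1 T c x y z := by
    calc ∑ x ∈ box T, ∑ y ∈ box T, ∑ z ∈ box T, M1 T c z y x
        = ∑ y ∈ box T, ∑ x ∈ box T, ∑ z ∈ box T, M1 T c z y x := Finset.sum_comm
      _ = ∑ y ∈ box T, ∑ z ∈ box T, ∑ x ∈ box T, M1 T c z y x :=
          Finset.sum_congr rfl (fun y _ => Finset.sum_comm)
      _ = ∑ z ∈ box T, ∑ y ∈ box T, ∑ x ∈ box T, M1 T c z y x := Finset.sum_comm
  calc (S3 T c).card = ∑ x ∈ box T, ∑ y ∈ box T, ∑ z ∈ box T, (fib T x y z c).card := h1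
    _ ≤ ∑ x ∈ box T, ∑ y ∈ box T, ∑ z ∈ box T,
          ((if (x, y, z) = ((0 : ℤ), (0 : ℤ), (0 : ℤ)) then (2 * T + 1) ^ 3 else 0)
            + M1 T c x y z + M1 T c y x z + M1 T c z y x) :=
        Finset.sum_le_sum (fun x _ => Finset.sum_le_sum (fun y _ =>
          Finset.sum_le_sum (fun z _ => fib_pointwise T c x y z)))
    _ = (∑ x ∈ box T, ∑ y ∈ box T, ∑ z ∈ box T,
          (if (x, y, z) = ((0 : ℤ), (0 : ℤ), (0 : ℤ)) then (2 * T + 1) ^ 3 else 0))
          + (∑ x ∈ box T, ∑ y ∈ box T, ∑ z ∈ box T, M1 T c x y z)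
          + (∑ x ∈ box T, ∑ y ∈ box T, ∑ z ∈ box T, M1 T c y x z)
          + (∑ x ∈ box T, ∑ y ∈ box T, ∑ z ∈ box T, M1 T c z y x) := by
        simp only [Finset.sum_add_distrib]
    _ ≤ (2 * T + 1) ^ 3 + 243 * T ^ 4 + 243 * T ^ 4 + 243 * T ^ 4 := by
        rw [h2, h3]
        gcongr
    _ ≤ 756 * T ^ 4 := by
        have h2' : 2 * T + 1 ≤ 3 * T := by omega
        have : (2 * T + 1) ^ 3 ≤ 27 * T ^ 4 := by
          calc (2 * T + 1) ^ 3 ≤ (3 * T) ^ 3 := by gcongr
            _ = 27 * T ^ 3 := by ring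
            _ ≤ 27 * T ^ 4 := by
              have : T ^ 3 ≤ T ^ 4 := Nat.pow_le_pow_right hT (by norm_num)
              omega
        omega

end Vale.Agent.Lib.P054
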